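import Crest.Agent.X212.Pb50.End

/-!
# Row 212, SW-PT (helper50): smooth points of the Banach model
-/

set_option autoImplicit false
set_option linter.unusedSectionVars false
noncomputable section
open scoped Manifold ContDiff Topology InnerProductSpace
open MeasureTheory Set Function Filter

namespace Crest.Agent.X212.Pb50
open An Sw Sob92 Cyf70 Sw.En3
open M (Mf pm)
open Mod61 (Hs ofV val_ofV)

variable {κ lam ν : Type} [Fintype κ] [Fintype lam] [Fintype ν] [DecidableEq ν]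
  {X : Mf 4} {nc nr : ℕ}

section ng
variable {nc' : ℕ} {e : En3 κ lam ν} {b : Bg X.I X.M κ lam ν nc} {b' : Bg X.I X.M κ lam ν nc'}
  {K : Nk e b} {K' : Nk e b'} (h : K'.ng = K.ng) {s : Bool}
include h

theorem ng_p : K'.p = K.p := congrArg (·.1) h
theorem ng_q : K'.q = K.q := congrArg (·.2.1) h
theorem ng_ψ : K'.ψ = K.ψ := congrArg (·.2.2.1) h
theorem ng_tm : K'.tm = K.tm := congrArg (·.2.2.2) h

theorem ng_inf : K'.Inf s ↔ K.Inf s := by simp only [Nk.Inf, ng_p h, ng_q h]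

theorem ng_far (T : ℝ) : K'.far s T = K.far s T := by
  simp only [Nk.far, Nd18.Nk.J, ng_p h, ng_q h]

theorem ng_asyG (u : X.M → ℂ) : K'.AsyG s u ↔ K.AsyG s u := by
  simp only [Nk.AsyG, ng_far h, ng_ψ h]

theorem ng_asy (v : e.YC) (c : Cfg X.M κ ν) : K'.Asy s v c ↔ K.Asy s v c := by
  simp only [Nk.Asy, ng_far h, Nk.pb, ng_ψ h]

theorem ng_e (a : Option κ) {x : e.Y.M × ℝ} (hx : x ∈ K.ψ.source) :
    b'.F.e a (K.ψ x) = b.F.e a (K.ψ x) := by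
  have := K'.iso.e a x (ng_ψ h ▸ hx)
  rw [ng_ψ h] at this
  exact this.symm.trans (K.iso.e a x hx)

omit h in
theorem asy_congr {v : e.YC} {c c' : Cfg X.M κ ν} (ha : ∀ i, ∀ x ∈ K.ψ.source,
    c'.a i (K.ψ x) = c.a i (K.ψ x)) (hΦ : c'.Φ = c.Φ) (k : K.Asy s v c) : K.Asy s v c' :=
  k.imp fun T k => ⟨fun i => hh_congr (k.1 i) (isOpen_far K T) fun x hx =>
    congrArg (· - _) (ha i x (K.mem_src.2 hx.2.1)).symm, by simpa only [Cfg.pb, hΦ] using k.2⟩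

end ng

/-- one-forms from their components -/
theorem Hi.toLp {ι α : Type} [Fintype ι] [Fintype α] {F : Pre X.I X.M ι} {f : α → X.M → ℝ}
    (h : ∀ a, Hi F (f a)) : Hi F fun x => (WithLp.toLp 2 fun a => f a x : Fm α ℝ) := by
  classical
  have : (fun x => (WithLp.toLp 2 fun a => f a x : Fm α ℝ)) = ∑ a, fun x =>
      (ContinuousLinearMap.id ℝ ℝ).smulRight (PiLp.single 2 a (1 : ℝ) : Fm α ℝ) (f a x) := by
    funext x
    ext a
    simp [Finset.sum_apply, Pi.single_apply]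
  rw [this]
  exact Finset.sum_induction _ _ (fun _ _ => Hi.add) Hi.zero fun a _ => (h a).clm _

theorem p1_apply {b : Bg X.I X.M κ lam ν nc} (x : X.M) (v : Fm (Option κ) ℝ) (a : Option κ) :
    b.p1 x v a = ∑ j, b.B.P a j x * v j := by simp [Bg.p1, idx, -Fintype.sum_option]

variable {N : Type} [Fintype N] {d : Dt κ lam ν} {ty : N → d.𝓔}
  {T : Type} [NormedAddCommGroup T] [NormedSpace ℝ T] [FiniteDimensional ℝ T]
  {s : Pz X 0 fun i => d.e (ty i)}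

section fam
variable {𝓕 : Fam s nc T} (h : 𝓕.OK) {t : T} (ht : t ∈ 𝓕.Q) {β : BCs fun i => d.e (ty i)}
  {c : Cfg X.M κ ν}
include h ht

theorem inf_site {i : N} {b : Bool} {K' : Nk (d.e (ty i)) (𝓕.P t).bg} (hK : K' ∈ (𝓕.P t).nk i)
    (hb : K'.Inf b) : ∃ K ∈ s.nk i, K'.ng = K.ng := by
  cases e : s.nk i with
  | none =>
    have : ∃ a a', K'.p = some a ∧ K'.q = some a' := by
      rcases h.nk t ht i e with k | ⟨K₀, h0, a, a', h1, h2, -⟩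
      · obtain ⟨a, h1, h2⟩ := k.self_of_nhds K' hK
        exact ⟨_, _, h1, h2⟩
      · obtain rfl := Option.mem_unique hK h0
        exact ⟨_, _, h1, h2⟩
    obtain ⟨a, a', h1, h2⟩ := this
    cases b <;> simp [Nk.Inf, h1, h2] at hb
  | some K =>
    obtain ⟨K'', h1, h2⟩ := h.en t ht i K e
    obtain rfl := Option.mem_unique hK h1
    exact ⟨K, rfl, h2⟩

theorem inf_iff (i : N) (b : Bool) : (𝓕.P t).Inf i b ↔ s.Inf i b :=
  ⟨fun ⟨_, h1, h2⟩ => let ⟨K, k1, k2⟩ := inf_site h ht h1 h2; ⟨K, k1, (ng_inf k2).1 h2⟩,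
    fun ⟨K, h1, h2⟩ => let ⟨K', k1, k2⟩ := h.en t ht i K h1; ⟨K', k1, (ng_inf k2).2 h2⟩⟩

theorem ends_iff {p : ∀ i, Bool → Nk (d.e (ty i)) s.bg → Prop}
    {p' : ∀ i, Bool → Nk (d.e (ty i)) (𝓕.P t).bg → Prop}
    (e : ∀ i b, ∀ K ∈ s.nk i, ∀ K', K'.ng = K.ng → (p' i b K' ↔ p i b K)) :
    (∀ i b, ∀ K ∈ (𝓕.P t).nk i, K.Inf b → p' i b K) ↔ ∀ i b, ∀ K ∈ s.nk i, K.Inf b → p i b K :=
  ⟨fun k i b K hK hb => let ⟨K', k1, k2⟩ := h.en t ht i K hK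
      (e i b K hK K' k2).1 (k i b K' k1 ((ng_inf k2).2 hb)),
    fun k i b K' hK hb => let ⟨K, k1, k2⟩ := inf_site h ht hK hb
      (e i b K k1 K' k2).2 (k i b K k1 ((ng_inf k2).1 hb))⟩

theorem al_fam (u : X.M → ℂ) : (𝓕.P t).Al u ↔ s.Al u :=
  and_congr_right fun _ => ends_iff h ht fun _ _ _ _ _ k => ng_asyG k u

/-- on the ends the frames agree -/
theorem S_nk {i : N} {K : Nk (d.e (ty i)) s.bg} (hK : K ∈ s.nk i) {x : (d.e (ty i)).Y.M × ℝ}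
    (hx : x ∈ K.ψ.source) (a b : Option κ) : 𝓕.S t (K.ψ x) a b = s.bg.B.P a b (K.ψ x) := by
  obtain ⟨K', -, k⟩ := h.en t ht i K hK
  have hP := h.site.bg.G.P
  have h1 := s.bg.F.P_ker (K.ψ x) (fun j => 𝓕.S t (K.ψ x) a j - s.bg.F.P a j (K.ψ x)) (by
    simp only [sub_smul, Finset.sum_sub_distrib]
    rw [s.bg.F.P_e, ← h.mix t ht a, ng_e k a hx, sub_self]) b
  have pr := h.site.bg.B.pr (K.ψ x)
  rw [show s.bg.F.P = s.bg.B.P from hP] at h1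
  simp only [mul_sub, Finset.sum_sub_distrib] at h1
  rw [← h.SP t ht, ← pr.idem a b, ← sub_eq_zero, ← h1]
  congr 1 <;> exact Finset.sum_congr rfl fun j _ => by rw [mul_comm, pr.symm j b]

theorem Si_nk {i : N} {K : Nk (d.e (ty i)) s.bg} (hK : K ∈ s.nk i) {x : (d.e (ty i)).Y.M × ℝ}
    (hx : x ∈ K.ψ.source) (a b : Option κ) : 𝓕.Si t (K.ψ x) a b = s.bg.B.P a b (K.ψ x) := by
  rw [← h.SiS t ht, ← h.SiP t ht]
  exact Finset.sum_congr rfl fun j _ => by rw [S_nk h ht hK hx]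

theorem S_al (hc : ∀ i x, ∑ j, s.bg.B.P i j x * c.a j x = c.a i x) (i : Option κ) (x : X.M) :
    ∑ a, 𝓕.S t x i a * 𝓕.al t c x a = c.a i x := by
  simp only [Fam.al, Finset.mul_sum, ← mul_assoc]
  rw [Finset.sum_comm, ← hc i x]
  exact Finset.sum_congr rfl fun j _ => by rw [← Finset.sum_mul, h.SSi t ht]

theorem al_S {α : Option κ → X.M → ℝ} (hα : ∀ i x, ∑ j, s.bg.B.P i j x * α j x = α i x)
    (Φ : X.M → Eu ν) (x : X.M) (i : Option κ) :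
    𝓕.al t ⟨fun a x => ∑ b, 𝓕.S t x a b * α b x, Φ⟩ x i = α i x := by
  simp only [Fam.al, Finset.mul_sum, ← mul_assoc]
  rw [Finset.sum_comm, ← hα i x]
  exact Finset.sum_congr rfl fun j _ => by rw [← Finset.sum_mul, h.SiS t ht]

theorem P_S (α : Option κ → X.M → ℝ) (i : Option κ) (x : X.M) :
    ∑ j, s.bg.B.P i j x * ∑ b, 𝓕.S t x j b * α b x = ∑ b, 𝓕.S t x i b * α b x := by
  simp only [Finset.mul_sum, ← mul_assoc]
  rw [Finset.sum_comm]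
  exact Finset.sum_congr rfl fun j _ => by rw [← Finset.sum_mul, h.PS t ht]

theorem P_al (c : Cfg X.M κ ν) (i : Option κ) (x : X.M) :
    ∑ j, s.bg.B.P i j x * 𝓕.al t c x j = 𝓕.al t c x i := by
  simp only [Fam.al, Finset.mul_sum, ← mul_assoc]
  rw [Finset.sum_comm]
  exact Finset.sum_congr rfl fun j _ => by rw [← Finset.sum_mul, h.PSi t ht]

theorem pp_fam : (𝓕.P t).bg.pp = s.bg.pp := by
  funext x
  simp only [Bg.pp, Bg.vol, h.B t ht, h.m t ht]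

theorem adm_fam (c : Cfg X.M κ ν) : (𝓕.P t).bg.Adm c ↔
    s.bg.Adm ⟨fun a x => 𝓕.al t c x a, c.Φ⟩ ∧ ∀ i x, ∑ j, s.bg.B.P i j x * c.a j x = c.a i x := by
  refine ⟨fun k => ⟨⟨fun a x => Wz78.SA.sum _ fun j _ => Wz78.SA.mul
    (((h.sSi a j).cb t ht).choose_spec.1 x) (k.sa j x), k.sΦ, P_al h ht c,
    fun x => pp_fam h ht ▸ k.pΦ x⟩, h.B t ht ▸ k.pa⟩, fun ⟨k, hc⟩ => ⟨fun i => ?_, k.sΦ,
      (h.B t ht).symm ▸ hc, fun x => (pp_fam h ht).symm ▸ k.pΦ x⟩⟩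
  rw [← funext (S_al h ht hc i)]
  exact fun x => Wz78.SA.sum _ fun j _ =>
    Wz78.SA.mul (((h.sS i j).cb t ht).choose_spec.1 x) (k.sa j x)

theorem as_fam (β : BCs fun i => d.e (ty i)) (c : Cfg X.M κ ν) : (𝓕.P t).As β c ↔
    s.As β ⟨fun a x => 𝓕.al t c x a, c.Φ⟩ ∧ ∀ i x, ∑ j, s.bg.B.P i j x * c.a j x = c.a i x := by
  rw [Pz.As, Pz.As, adm_fam h ht, and_right_comm]
  refine and_congr_left fun hc => and_congr_right fun _ => ends_iff h ht fun i b K hK K' k => ?_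
  have e : ∀ a, ∀ x ∈ K.ψ.source, 𝓕.al t c (K.ψ x) a = c.a a (K.ψ x) := fun a x hx =>
    (Finset.sum_congr rfl fun j _ => by rw [Si_nk h ht hK hx]).trans (hc a _)
  exact (ng_asy k _ c).trans ⟨asy_congr e rfl, asy_congr (fun a x hx => (e a x hx).symm) rfl⟩

/-- the point with the coordinates `c` in the frame of the site -/
theorem as_S (hc : s.As β c) :
    (𝓕.P t).As β ⟨fun a x => ∑ b, 𝓕.S t x a b * c.a b x, c.Φ⟩ := by
  refine (as_fam h ht β _).2 ⟨?_, P_S h ht _⟩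
  simpa only [al_S h ht hc.1.pa] using hc

end fam

variable {σ : Cel s nc nr T} (h : σ.toFam.OK) (hβ : s.Cr σ.β) {k : ℕ}
include h hβ

theorem hs_a (y : σ.Pnt) : (fun x => σ.al y.1.1 y.1.2 x -
    WithLp.toLp 2 fun a => (s.base σ.β).a a x) ∈ Hs s.bg.F.toPre s.bg.p1 := by
  have h1 := (as_iff h.site hβ).1 ((as_fam h y.2.1 _ _).1 y.2.2).1
  refine (hs_iff h.site.bg.tame.choose_spec).2 ⟨Hi.toLp h1.2.1, fun x => ?_⟩
  ext a
  simp only [p1_apply, PiLp.sub_apply, mul_sub, Finset.sum_sub_distrib, P_al h y.2.1,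
    (adm_base hβ).pa]

theorem hs_Φ (y : σ.Pnt) : y.1.2.Φ - (s.base σ.β).Φ ∈ Hs s.bg.F.toPre s.bg.pp := by
  have h1 := (as_iff h.site hβ).1 ((as_fam h y.2.1 _ _).1 y.2.2).1
  exact (hs_iff h.site.bg.tame.choose_spec).2 ⟨h1.2.2, fun x => by
    rw [Pi.sub_apply, map_sub, (adm_base hβ).pΦ]; exact congrArg (· - _) (h1.1.pΦ x)⟩

theorem val_a (hk : 3 ≤ k) (y : σ.Pnt) : s.bg.F.val _ _ (σ.pt k y).1 = fun x =>
    σ.al y.1.1 y.1.2 x - WithLp.toLp 2 fun a => (s.base σ.β).a a x :=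
  val_ofV (hs_a h hβ y) (by omega)

theorem val_Φ (hk : 3 ≤ k) (y : σ.Pnt) :
    s.bg.F.val _ _ (σ.pt k y).2.1 = y.1.2.Φ - (s.base σ.β).Φ := val_ofV (hs_Φ h hβ y) (by omega)

theorem pt_inj (hk : 3 ≤ k) : Injective (σ.pt k) := by
  rintro ⟨⟨t, c⟩, ht, hc⟩ ⟨⟨t', c'⟩, ht', hc'⟩ e
  obtain rfl : t = t' := congrArg (·.2.2) e
  have e1 := (val_a h hβ hk ⟨_, ht, hc⟩).symm.trans
    ((congrArg (fun v => s.bg.F.val _ _ v.1) e).trans (val_a h hβ hk ⟨_, ht', hc'⟩))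
  have e2 := (val_Φ h hβ hk ⟨_, ht, hc⟩).symm.trans
    ((congrArg (fun v => s.bg.F.val _ _ v.2.1) e).trans (val_Φ h hβ hk ⟨_, ht', hc'⟩))
  refine Subtype.ext (Prod.ext rfl (Cfg.ext (funext fun i => funext fun x => ?_) (sub_left_injective e2)))
  have e3 : σ.al t c x = σ.al t c' x := sub_left_injective (congrFun e1 x)
  exact (S_al h ht ((as_fam h ht _ _).1 hc).2 i x).symm.trans
    (e3 ▸ S_al h ht ((as_fam h ht _ _).1 hc').2 i x)

omit h hβ in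
theorem norm_ofV_sub {W ι : Type} [NormedAddCommGroup W] [InnerProductSpace ℝ W] [CompleteSpace W]
    [Fintype ι] {F : Fr X.I X.M ι} {C : ℕ → ℝ} (hT : F.Tame C) {p : X.M → W →L[ℝ] W}
    {u v : X.M → W} (hu : u ∈ Hs F.toPre p) (hv : v ∈ Hs F.toPre p) (hk : 4 ≤ k) :
    ‖ofV F.toPre k p u - ofV F.toPre k p v‖ = F.nrm k (u - v) := by
  have hS := Sup.of_tame hT
  have := (Is.val hS hk (ofV F.toPre k p u)).sub (Is.val hS hk (ofV F.toPre k p v))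
  rw [val_ofV hu hk, val_ofV hv hk] at this
  exact this.norm (((hs_iff hT).1 hu).1.1.sub ((hs_iff hT).1 hv).1.1)

theorem norm_pt (hk : 3 ≤ k) (y y' : σ.Pnt) :
    ‖(σ.pt k y - σ.pt k y').1‖ = s.bg.F.nrm (k + 1) (σ.al y.1.1 y.1.2 - σ.al y'.1.1 y'.1.2) ∧
    ‖(σ.pt k y - σ.pt k y').2.1‖ = s.bg.F.nrm (k + 1) (y.1.2.Φ - y'.1.2.Φ) := by
  have hT := h.site.bg.tame.choose_spec
  refine ⟨(norm_ofV_sub hT (hs_a h hβ y) (hs_a h hβ y') (by omega)).trans (congrArg _ ?_),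
    (norm_ofV_sub hT (hs_Φ h hβ y) (hs_Φ h hβ y') (by omega)).trans (congrArg _ ?_)⟩
  · funext x
    exact sub_sub_sub_cancel_right _ _ _
  · exact sub_sub_sub_cancel_right _ _ _

theorem norm_le_dk (hk : 3 ≤ k) (y y' : σ.Pnt) : ‖σ.pt k y - σ.pt k y'‖ ≤ σ.dk (k + 1) y y' := by
  obtain ⟨h1, h2⟩ := norm_pt h hβ hk y y'
  rw [Cel.dk, ← h1, ← h2, Prod.norm_def, Prod.norm_def]
  have a1 := norm_nonneg (σ.pt k y - σ.pt k y').1
  have a2 := norm_nonneg (σ.pt k y - σ.pt k y').2.1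
  have a3 := norm_nonneg (y.1.1 - y'.1.1)
  refine max_le (by linarith) (max_le (by linarith) ?_)
  show ‖y.1.1 - y'.1.1‖ ≤ _
  linarith

theorem dk_le_norm (hk : 3 ≤ k) (y y' : σ.Pnt) :
    σ.dk (k + 1) y y' ≤ 3 * ‖σ.pt k y - σ.pt k y'‖ := by
  obtain ⟨h1, h2⟩ := norm_pt h hβ hk y y'
  have a1 := norm_fst_le (σ.pt k y - σ.pt k y')
  have a2 := (norm_fst_le _).trans (norm_snd_le (σ.pt k y - σ.pt k y'))
  have a3 : ‖y.1.1 - y'.1.1‖ ≤ _ := (norm_snd_le _).trans (norm_snd_le (σ.pt k y - σ.pt k y'))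
  rw [Cel.dk, ← h1, ← h2]
  linarith

theorem exists_pt {t : T} (ht : t ∈ σ.Q) {α : X.M → Fm (Option κ) ℝ} {φ : X.M → Eu ν}
    (hα : α ∈ Hs s.bg.F.toPre s.bg.p1) (hφ : φ ∈ Hs s.bg.F.toPre s.bg.pp) :
    ∃ y : σ.Pnt, ∀ k, σ.pt k y = (ofV _ _ _ α, ofV _ _ _ φ, t) := by
  have hT := h.site.bg.tame.choose_spec
  obtain ⟨a1, a2⟩ := (hs_iff hT).1 hα
  obtain ⟨b1, b2⟩ := (hs_iff hT).1 hφ
  have hb := adm_base hβ
  have a3 : ∀ a, Hi s.bg.F.toPre fun x => α x a := fun a =>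
    a1.clm (PiLp.proj 2 (fun _ : Option κ => ℝ) a)
  let c : Cfg X.M κ ν := ⟨fun a => (s.base σ.β).a a + fun x => α x a, (s.base σ.β).Φ + φ⟩
  have hc : s.As σ.β c := (as_iff h.site hβ).2 ⟨⟨fun a => (hb.sa a).add (a3 a).1, hb.sΦ.add b1.1,
    fun i x => by
      simp only [c, Pi.add_apply, mul_add, Finset.sum_add_distrib, hb.pa, ← p1_apply, a2],
    fun x => by simp only [c, Pi.add_apply, map_add, hb.pΦ, b2]⟩,
    fun a => by simpa only [c, add_sub_cancel_left] using a3 a,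
    by simpa only [c, add_sub_cancel_left] using b1⟩
  refine ⟨⟨(t, _), ht, as_S h ht hc⟩, fun k => Prod.ext (congrArg (ofV _ _ _) (funext fun x => ?_))
    (Prod.ext (congrArg (ofV _ _ _) (add_sub_cancel_left _ _)) rfl)⟩
  ext a
  rw [PiLp.sub_apply, al_S h ht hc.1.pa]
  exact add_sub_cancel_left _ _

theorem dense_pt (hk : 3 ≤ k) : σ.U k ⊆ closure (range (σ.pt k)) := fun v hv => by
  have hS := Sup.of_tame h.site.bg.tame.choose_spec
  have h1 := mk_mem_prod (Mod61.dense_ofV hS (by omega) v.1) (closure_prod_eq.symm.subset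
    (mk_mem_prod (Mod61.dense_ofV hS (by omega) v.2.1) (subset_closure (mem_singleton v.2.2))))
  refine closure_mono ?_ (closure_prod_eq.symm.subset h1)
  rintro ⟨_, _, _⟩ ⟨⟨α, hα, rfl⟩, ⟨φ, hφ, rfl⟩, rfl⟩
  exact (exists_pt h hβ hv hα hφ).imp fun y hy => hy k

omit h hβ in
variable (d ty X nc nr T) in
/-- **SW-PT** -/
theorem ptStmt : PtStmt d ty X nc nr T := fun _ σ h hβ =>
  ⟨fun _ ht => ⟨as_S h ht (as_base h.site hβ), as_fam h ht σ.β, al_fam h ht⟩, fun k hk =>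
    ⟨dense_pt h hβ (by omega), pt_inj h hβ (by omega),
      fun y => congrFun (val_a h hβ (by omega) y), val_Φ h hβ (by omega),
      norm_le_dk h hβ (by omega), fun _ ht _ hα _ hφ =>
        (exists_pt h hβ ht hα hφ).imp fun _ hy => hy k⟩⟩

end Crest.Agent.X212.Pb50
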