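import Crest.Agent.X212.Pb50.Main
import Crest.Agent.X212.Sw.Lv
import Crest.Agent.X212.Mod61.Hs

/-!
# Row 212, SW-PT (helper50): square integrability along the ends, the base configuration
-/

set_option autoImplicit false
set_option linter.unusedSectionVars false
noncomputable section
open scoped Manifold ContDiff Topology InnerProductSpace
open MeasureTheory Set Function Filter

namespace Crest.Agent.X212.Pb50
open An Sw Sob92 Cyf70 Sw.En3
open Wz78 (SA)
open Nd18 (Jv Dp isOpen_Jv)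
open M (Mf pm)
open Mod61 (Hs ofV)

variable {κ lam ν : Type} [Fintype κ] [Fintype lam] [Fintype ν] [DecidableEq ν]
  {X : Mf 4} {nc : ℕ} {V : Type} [NormedAddCommGroup V] [NormedSpace ℝ V]

theorem iso_int {X' : Mf 4} {ι : Type} [Fintype ι] {F : Pre X'.I X'.M ι} {F' : Pre X.I X.M ι}
    {φ : OpenPartialHomeomorph X'.M X.M} (h : Iso F F' φ) {S : Set X'.M} (hS : IsOpen S)
    (hs : S ⊆ φ.source) {g : X.M → ℝ} (hg : Continuous g) :
    IntegrableOn g (φ '' S) F'.μ ↔ IntegrableOn (fun x => g (φ x)) S F.μ := by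
  have aem : AEMeasurable φ (F.μ.restrict φ.source) :=
    φ.continuousOn.aemeasurable φ.open_source.measurableSet
  have hO := (φ.isOpen_image_of_subset_source hS hs).measurableSet
  have e : F'.μ.restrict (φ '' S) = (F.μ.restrict S).map φ := by
    rw [← inter_eq_left.2 (image_subset_iff.2 fun x hx => φ.map_source (hs hx) : φ '' S ⊆ φ.target),
      ← Measure.restrict_restrict hO, ← h.μ, Measure.restrict_map_of_aemeasurable aem hO,
      Measure.restrict_restrict' φ.open_source.measurableSet, φ.injOn.preimage_image_inter hs]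
  rw [IntegrableOn, e, integrable_map_measure hg.aestronglyMeasurable
    (aem.mono_measure (Measure.restrict_mono hs le_rfl))]
  rfl

/-- the class `Hs` -/
theorem hs_iff {W ι : Type} [NormedAddCommGroup W] [InnerProductSpace ℝ W] [CompleteSpace W]
    [Fintype ι] {F : Fr X.I X.M ι} {C : ℕ → ℝ} (hT : F.Tame C) {p : X.M → W →L[ℝ] W}
    {u : X.M → W} : u ∈ Hs F.toPre p ↔ Hi F.toPre u ∧ ∀ x, p x (u x) = u x := by
  have hS := Sup.of_tame hT
  refine ⟨fun h => ⟨?_, Mod61.Hs_proj hS h⟩, fun ⟨h, hp⟩ k hk => ?_⟩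
  · have hs := (Mod61.Hs_cb hS h).choose_spec.1
    refine ⟨hs, fun k => ML.of_le (j := k + 4) ?_ (by omega)⟩
    obtain ⟨g, hg⟩ := h (k + 4) (by omega)
    exact Is.FL (hg ▸ Is.val hS (by omega) g) hs
  · exact (exists_Is (Exh.of_tame hT) h.1 (h.2 k) hp).imp fun g hg =>
      hg.val_eq hS hk h.1.continuous

section nk
variable {e : En3 κ lam ν} {b : Bg X.I X.M κ lam ν nc} (K : Nk e b) {s : Bool} {f : X.M → V}

theorem isOpen_far (T : ℝ) : IsOpen ((univ : Set e.Y.M) ×ˢ K.far s T) :=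
  isOpen_univ.prod (isOpen_Jv.inter (isOpen_lt continuous_const (by fun_prop)))

theorem hh_ψ (hf : Sm X.I f) (T : ℝ) : Hh b.F.toPre (K.ψ '' (univ ×ˢ K.far s T)) f ↔
    Hh e.D.Z.toPre (univ ×ˢ K.far s T) fun x => f (K.ψ x) := forall_congr' fun w => by
  refine (iso_int (X' := e.Z) K.iso (isOpen_far K T) (fun x hx => K.mem_src.2 hx.2.1)
    (g := fun x => ‖b.F.Dw w f x‖ ^ 2) ((sm_Dw hf w).continuous.norm.pow 2)).trans ?_
  exact integrableOn_congr_fun (fun x hx => by simp only [Dw_ψ K (K.mem_src.2 hx.2.1)])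
    (isOpen_far K T).measurableSet

theorem gl_of_hi (h : K.Inf s) (hf : Hi b.F.toPre f) : Gl e.D.F.toPre s fun x => f (K.ψ x) :=
  (gl_iff K h fun _ hx => sa_ψ K hx (hf.1 _)).1 ⟨0, (hh_ψ K hf.1 0).1 (hf.hh _)⟩

theorem bw_dp {x : X.M} (h : K.bw s x ≠ 0) : K.Inf s ∧ 1 < pm s * K.tm x ∧ x ∈ K.dp 1 := by
  have h1 : K.Inf s := by_contra fun k => h (if_neg k)
  rw [Nk.bw, if_pos h1] at h
  have h2 : |K.p.getD 0| + |K.q.getD 0| + 1 < pm s * K.tm x := by
    by_contra k
    exact h (Real.smoothTransition.zero_of_nonpos (by linarith))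
  have a1 := abs_nonneg (K.p.getD 0)
  have a2 := abs_nonneg (K.q.getD 0)
  refine ⟨h1, by linarith, ?_⟩
  cases s
  · have hp : K.p = none := h1
    refine ⟨by simp [hp], fun a ha => ?_⟩
    rw [Option.mem_def.1 ha] at h2
    simp only [pm, Bool.false_eq_true, if_false, Option.getD_some] at h2
    linarith [neg_abs_le a]
  · have hq : K.q = none := h1
    refine ⟨fun a ha => ?_, by simp [hq]⟩
    rw [Option.mem_def.1 ha] at h2
    simp only [pm, if_true, Option.getD_some] at h2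
    linarith [le_abs_self a]

theorem cb_bw {g : e.Y.M × ℝ → V} (hg : e.D.Z.Cb g) :
    b.F.Cb fun x => K.bw s x • g (K.ψ.symm x) := by
  by_cases h : K.Inf s
  · obtain ⟨C, hC⟩ := Cb_smul (cb_st (F := e.D.F.toPre) (s := s) (|K.p.getD 0| + |K.q.getD 0| + 1)) hg
    have h0 : ∀ t, t ∉ Dp K.p K.q 1 →
        Real.smoothTransition (pm s * t - (|K.p.getD 0| + |K.q.getD 0| + 1)) = 0 := fun t ht => by
      refine Real.smoothTransition.zero_of_nonpos (le_of_not_gt fun k => ht ?_)
      have a1 := abs_nonneg (K.p.getD 0)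
      have a2 := abs_nonneg (K.q.getD 0)
      cases s
      · have hp : K.p = none := h
        refine ⟨by simp [hp], fun a ha => ?_⟩
        rw [Option.mem_def.1 ha] at k
        simp only [pm, Bool.false_eq_true, if_false, Option.getD_some] at k
        linarith [neg_abs_le a]
      · have hq : K.q = none := h
        refine ⟨fun a ha => ?_, by simp [hq]⟩
        rw [Option.mem_def.1 ha] at k
        simp only [pm, if_true, Option.getD_some] at k
        linarith [le_abs_self a]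
    have := K.CBs_push one_pos hC fun z hz => by rw [h0 _ hz, zero_smul]
    refine ⟨_, (congrArg (b.F.CBs · _) (funext fun x => ?_)).mp this⟩
    by_cases hx : x ∈ K.ψ.target
    · rw [Nd18.Nk.push, pull_of_mem (φ := K.ψ.symm) hx, K.snd_symm hx, Nk.bw, if_pos h]
    · rw [Nd18.Nk.push, pull_of_notMem (φ := K.ψ.symm) hx,
        show K.bw s x = 0 from by_contra fun k => off K hx (bw_dp K k).2.2, zero_smul]
  · simp only [Nk.bw, if_neg h, zero_smul]
    exact Cb_const _

theorem cb_fz {g : e.Y.M × ℝ → V} (h : Sm (IC e.Y.I) g) (h' : ∀ x, g x = g (x.1, 0)) :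
    e.D.Z.Cb g := (funext h' : g = _) ▸ Cht98.Cb_fst _ (Cb_of_compact (sm_slice_fst h 0))

end nk

variable {N : Type} [Fintype N] {e : N → En3 κ lam ν} {P : Pz X nc e} (hP : P.OK) {β : BCs e}
include hP

/-- square integrable along the infinite ends -/
theorem hi_of_ends {f : X.M → V} (hf : Sm X.I f) (h : ∀ i s, ∀ K ∈ P.nk i, K.Inf s →
    Gl (e i).D.F.toPre s fun x => f (K.ψ x)) : Hi P.bg.F.toPre f := by
  have h1 : ∀ p : N × Bool, ∃ T : ℝ, ∀ K ∈ P.nk p.1, K.Inf p.2 →
      Hh P.bg.F.toPre (K.ψ '' (univ ×ˢ K.far p.2 T)) f := fun ⟨i, s⟩ => by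
    by_cases hK : ∃ K ∈ P.nk i, K.Inf s
    · obtain ⟨K, hK, hs⟩ := hK
      obtain ⟨T, hT⟩ := (h i s K hK hs).hh (J := K.J) isOpen_Jv
      refine ⟨T, fun K' hK' _ => ?_⟩
      obtain rfl := Option.mem_unique hK hK'
      exact (hh_ψ K hf T).2 hT
    · exact ⟨0, fun K h1 h2 => (hK ⟨K, h1, h2⟩).elim⟩
  choose T hT using h1
  obtain ⟨T', hT'⟩ := Finite.exists_le T
  have h2 : Hh P.bg.F.toPre univ f := fun w => by
    let A : N × Bool → Set X.M := fun p =>
      {z | ∃ K ∈ P.nk p.1, K.Inf p.2 ∧ z ∈ K.ψ '' (univ ×ˢ K.far p.2 T')}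
    refine IntegrableOn.mono_set (t := P.core T' ∪ ⋃ p, A p) (IntegrableOn.union
      (((sm_Dw hf w).continuous.norm.pow 2).continuousOn.integrableOn_compact (hP.cpt T'))
      (integrableOn_finite_iUnion.2 fun p => ?_)) fun z _ => ?_
    · by_cases hK : ∃ K ∈ P.nk p.1, K.Inf p.2
      · obtain ⟨K, hK, hs⟩ := hK
        refine (hT p K hK hs w).mono_set fun z ⟨K', hK', _, hz⟩ => ?_
        obtain rfl := Option.mem_unique hK hK'
        exact image_mono (far_mono K (hT' p)) hz
      · exact integrableOn_empty.mono_set fun z ⟨K, h1, h2, _⟩ => hK ⟨K, h1, h2⟩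
    · by_cases hz : z ∈ P.core T'
      · exact .inl hz
      · simp only [Pz.core, mem_ofPred, not_forall, not_not] at hz
        obtain ⟨i, s, K, hK, hs, hz⟩ := hz
        exact .inr (mem_iUnion.2 ⟨(i, s), K, hK, hs, hz⟩)
  refine ⟨hf, fun k => ?_⟩
  have := (hh_iff hf).1 h2 k
  rwa [FS, Measure.restrict_univ] at this

omit hP in
/-- sums of contributions of the ends -/
theorem base_ind {W : Type} [AddCommMonoid W] (p : W → Prop) (h0 : p 0)
    (ha : ∀ a b, p a → p b → p (a + b)) (f : ∀ i, Bool → Nk (e i) P.bg → W)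
    (hf : ∀ i s, ∀ K ∈ P.nk i, p (f i s K)) : p (∑ i, ∑ s, (P.nk i).elim 0 (f i s)) := by
  refine Finset.sum_induction _ p ha h0 fun i _ => Finset.sum_induction _ p ha h0 fun s _ => ?_
  cases h : P.nk i with
  | none => exact h0
  | some K => exact hf i s K h

omit hP in
theorem cb_base {g : ∀ i, Bool → (e i).Y.M × ℝ → V}
    (hg : ∀ i s, P.Inf i s → (e i).D.Z.Cb (g i s)) : P.bg.F.Cb fun x =>
      ∑ i, ∑ s, (P.nk i).elim 0 fun K => K.bw s x • g i s (K.ψ.symm x) := by
  refine Cb_sum _ fun i _ => Cb_sum _ fun s _ => ?_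
  cases h : P.nk i with
  | none => exact Cb_const _
  | some K =>
    by_cases hs : K.Inf s
    · exact cb_bw K (hg i s ⟨K, h, hs⟩)
    · simp only [Option.elim_some, Nk.bw, if_neg hs, zero_smul]
      exact Cb_const _

/-- far out on an end only this end contributes -/
theorem base_ev {g : ∀ i, Bool → (e i).Y.M × ℝ → V} {i : N} {s : Bool} {K : Nk (e i) P.bg}
    (hK : K ∈ P.nk i) (hs : K.Inf s) : ∀ᶠ x in nd (e i).Y.M s,
      ∑ j, ∑ b, ((P.nk j).elim 0 fun K' => K'.bw b (K.ψ x) • g j b (K'.ψ.symm (K.ψ x))) = g i s x := by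
  filter_upwards [ev_ψ K hs, nd_basis.mem_of_mem (i := |K.p.getD 0| + |K.q.getD 0| + 2) trivial]
    with x hx h
  have h : |K.p.getD 0| + |K.q.getD 0| + 2 < pm s * x.2 := h
  have a1 := abs_nonneg (K.p.getD 0)
  have a2 := abs_nonneg (K.q.getD 0)
  rw [Finset.sum_comm, Finset.sum_congr rfl fun b _ => sum_nk hP hK (K.ψ.map_source hx) _
    fun j K' hz => by rw [show K'.bw b (K.ψ x) = 0 from by_contra fun k => hz (bw_dp K' k).2.2,
      zero_smul], Finset.sum_eq_single s (fun b _ hb => ?_) fun k => (k (Finset.mem_univ s)).elim,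
    Nk.bw, if_pos hs, K.tm_ψ x hx, Real.smoothTransition.one_of_one_le (by linarith), one_smul,
    K.ψ.left_inv hx]
  rw [show K.bw b (K.ψ x) = 0 from by_contra fun k => ?_, zero_smul]
  have := (bw_dp K k).2.1
  rw [K.tm_ψ x hx] at this
  cases s <;> cases b <;> simp only [pm, ne_eq, not_true, if_true, Bool.false_eq_true, if_false]
    at hb h this <;> linarith

omit hP in
theorem cb_base_a (hβ : P.Cr β) (a : Option κ) : P.bg.F.Cb ((P.base β).a a) :=
  cb_base (g := fun i s => (fz (β i s)).a a) fun i s h => cb_fz ((hβ i s h).1.sa a) (fz_a _ a)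

omit hP in
theorem cb_base_Φ (hβ : P.Cr β) : P.bg.F.Cb (P.base β).Φ :=
  cb_base (g := fun i s => (fz (β i s)).Φ) fun i s h => cb_fz (hβ i s h).1.sΦ fun _ => rfl

omit hP in
theorem adm_base (hβ : P.Cr β) : P.bg.Adm (P.base β) where
  sa a := (cb_base_a hβ a).choose_spec.1
  sΦ := (cb_base_Φ hβ).choose_spec.1
  pa a x := by
    have := base_ind (P := P) (fun v : Option κ → ℝ => ∑ j, P.bg.B.P a j x * v j = v a) (by simp)
      (fun u v hu hv => by simp only [Pi.add_apply, mul_add, Finset.sum_add_distrib, hu, hv])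
      (fun i s K j => K.bw s x * (fz (β i s)).a j (K.ψ.symm x)) fun i s K hK => by
        by_cases h : K.bw s x = 0
        · simp only [h, zero_mul, mul_zero, Finset.sum_const_zero]
        · have hx := K.dp_sub one_pos (bw_dp K h).2.2
          rw [← (hβ i s ⟨K, hK, (bw_dp K h).1⟩).1.pa a, Finset.mul_sum]
          refine Finset.sum_congr rfl fun j _ => ?_
          rw [← K.ψ.right_inv hx, K.P _ _ _ (K.ψ.map_target hx), K.ψ.right_inv hx, mul_left_comm]
          rfl
    have e1 : ∀ j, (P.base β).a j x = (∑ i, ∑ s, (P.nk i).elim (0 : Option κ → ℝ)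
        fun K j => K.bw s x * (fz (β i s)).a j (K.ψ.symm x)) j := fun j => by
      simp only [Finset.sum_apply, Pz.base]
      refine Finset.sum_congr rfl fun i _ => Finset.sum_congr rfl fun s _ => ?_
      cases P.nk i <;> rfl
    simpa only [e1] using this
  pΦ x := base_ind (P := P) (fun v : Eu ν => P.bg.pp x v = v) (map_zero _)
    (fun u v hu hv => by rw [map_add, hu, hv])
    (fun i s K => K.bw s x • (β i s).Φ (K.ψ.symm x).1) fun i s K hK => by
      by_cases h : K.bw s x = 0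
      · rw [h, zero_smul, map_zero]
      · have hx := K.dp_sub one_pos (bw_dp K h).2.2
        rw [map_smul, ← K.ψ.right_inv hx, pp_ψ K (K.ψ.map_target hx), K.ψ.right_inv hx]
        exact congrArg _ ((hβ i s ⟨K, hK, (bw_dp K h).1⟩).1.pΦ _)

/-- configurations with the limits `β` are the `Hi` perturbations of the base configuration -/
theorem as_iff (hβ : P.Cr β) {c : Cfg X.M κ ν} : P.As β c ↔ P.bg.Adm c ∧
    (∀ a, Hi P.bg.F.toPre (c.a a - (P.base β).a a)) ∧ Hi P.bg.F.toPre (c.Φ - (P.base β).Φ) := by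
  refine and_congr_right fun hc => ?_
  have hb := adm_base hβ
  have e1 := fun i s (K : Nk (e i) P.bg) hK hs a =>
    base_ev hP (g := fun i s => (fz (β i s)).a a) (s := s) (K := K) hK hs
  have e2 := fun i s (K : Nk (e i) P.bg) hK hs =>
    base_ev hP (g := fun i s => (fz (β i s)).Φ) (s := s) (K := K) hK hs
  refine ⟨fun h => ?_, fun h i s K hK hs => (asy_iff K hs hc (hβ i s ⟨K, hK, hs⟩).1).2 ⟨fun a =>
    (gl_of_hi K hs (h.1 a)).congr ((e1 i s K hK hs a).mono fun x hx => congrArg (_ - ·) hx.symm),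
    (gl_of_hi K hs h.2).congr ((e2 i s K hK hs).mono fun x hx => congrArg (_ - ·) hx.symm)⟩⟩
  have h1 := fun i s K hK hs => (asy_iff K hs hc (hβ i s ⟨K, hK, hs⟩).1).1 (h i s K hK hs)
  exact ⟨fun a => hi_of_ends hP ((hc.sa a).sub (hb.sa a)) fun i s K hK hs =>
      ((h1 i s K hK hs).1 a).congr ((e1 i s K hK hs a).mono fun x hx => congrArg (_ - ·) hx),
    hi_of_ends hP (hc.sΦ.sub hb.sΦ) fun i s K hK hs =>
      (h1 i s K hK hs).2.congr ((e2 i s K hK hs).mono fun x hx => congrArg (_ - ·) hx)⟩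

theorem as_base (hβ : P.Cr β) : P.As β (P.base β) :=
  (as_iff hP hβ).2 ⟨adm_base hβ, fun _ => by rw [sub_self]; exact Hi.zero,
    by rw [sub_self]; exact Hi.zero⟩

theorem al_iff {u : X.M → ℂ} : P.Al u ↔ Gau X.I u ∧ Hi P.bg.F.toPre fun x => u x - 1 :=
  and_congr_right fun hu => ⟨fun h => hi_of_ends hP (hu.1.sub contMDiff_const) fun i s K hK hs =>
    (asyG_iff K hs hu.1).1 (h i s K hK hs), fun h _ _ K _ hs =>
      (asyG_iff K hs hu.1).2 (gl_of_hi K hs h)⟩

end Crest.Agent.X212.Pb50
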