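import Crest.Agent.X212.Pb50.Pt

/-!
# Row 212, SW-REP (helper50): the maps of the moduli problem
-/

set_option autoImplicit false
set_option linter.unusedSectionVars false
noncomputable section
open scoped Manifold ContDiff Topology InnerProductSpace
open MeasureTheory Set Function Filter

namespace Crest.Agent.X212.Pb50
open An Sw Sob92 Cyf70 Sw.En3
open M (Mf)

variable {κ lam ν : Type} [Fintype κ] [Fintype lam] [Fintype ν] [DecidableEq ν]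
  {X : Mf 4} {nc nr : ℕ} {N : Type} [Fintype N] {d : Dt κ lam ν} {ty : N → d.𝓔}
  {T : Type} [NormedAddCommGroup T] [NormedSpace ℝ T] [FiniteDimensional ℝ T]
  {s : Pz X 0 fun i => d.e (ty i)} {σ : Cel s nc nr T} {k j : ℕ}
  {E E' : T → Cfg X.M κ ν → Ev κ ν X nc nr}

variable (σ j) in
/-- the values of an element of `σ.Y j` -/
def vl : σ.Y j →ₗ[ℝ] Ev κ ν X nc nr where
  toFun v := (s.bg.F.val j s.bg.pm v.1, s.bg.F.val j s.bg.p2 v.2.1, v.2.2)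
  map_add' _ _ := Prod.ext (val_add _ _) (Prod.ext (val_add _ _) rfl)
  map_smul' _ _ := Prod.ext (val_smul _ _) (Prod.ext (val_smul _ _) rfl)

theorem vl_inj (h : s.OK) (hj : 4 ≤ j) : Injective (vl σ j) := fun _ _ e =>
  have hS := Sup.of_tame h.bg.tame.choose_spec
  Prod.ext (val_injective hS hj (congrArg (·.1) e))
    (Prod.ext (val_injective hS hj (congrArg (·.2.1) e)) (congrArg (·.2.2) e))

theorem rep_vl {f : σ.C k → σ.Y j} (h : σ.Rep E f) (y : σ.Pnt) :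
    vl σ j (f (σ.pt k y)) = E y.1.1 y.1.2 := h.2 y

theorem rep_congr {f : σ.C k → σ.Y j} (h : σ.Rep E f)
    (e : ∀ y : σ.Pnt, E' y.1.1 y.1.2 = E y.1.1 y.1.2) : σ.Rep E' f :=
  ⟨h.1, fun y => (h.2 y).trans (e y).symm⟩

theorem rep_add {f g : σ.C k → σ.Y j} (h : σ.Rep E f) (h' : σ.Rep E' g) :
    σ.Rep (fun t c => E t c + E' t c) fun v => f v + g v :=
  ⟨h.1.add h'.1, fun y => (map_add (vl σ j) _ _).trans (congrArg₂ _ (h.2 y) (h'.2 y))⟩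

theorem rep_smul (r : ℝ) {f : σ.C k → σ.Y j} (h : σ.Rep E f) :
    σ.Rep (fun t c => r • E t c) fun v => r • f v :=
  ⟨h.1.const_smul r, fun y => (map_smul (vl σ j) _ _).trans (congrArg _ (h.2 y))⟩

theorem rep_neg {f : σ.C k → σ.Y j} (h : σ.Rep E f) : σ.Rep (fun t c => -E t c) fun v => -f v :=
  ⟨h.1.neg, fun y => (map_neg (vl σ j) _).trans (congrArg _ (h.2 y))⟩

theorem vl_mk (a : s.bg.F.H j s.bg.pm) (b : s.bg.F.H j s.bg.p2) (c : (Fin nc → ℂ) × (Fin nr → ℝ)) :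
    vl σ j (a, b, c) = (s.bg.F.val j s.bg.pm a, s.bg.F.val j s.bg.p2 b, c) := rfl

variable (σ) in
/-- the inclusion of levels -/
def inY (j i : ℕ) (v : σ.Y j) : σ.Y i := (s.bg.F.incl j i _ v.1, s.bg.F.incl j i _ v.2.1, v.2.2)

theorem inY_mk {i : ℕ} (a : s.bg.F.H j s.bg.pm) (b : s.bg.F.H j s.bg.p2)
    (c : (Fin nc → ℂ) × (Fin nr → ℝ)) :
    inY σ j i (a, b, c) = (s.bg.F.incl j i _ a, s.bg.F.incl j i _ b, c) := rfl

theorem vl_inY (h : s.OK) {i : ℕ} (hi : 4 ≤ i) (hj : i ≤ j) (v : σ.Y j) :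
    vl σ i (inY σ j i v) = vl σ j v := by
  have hS := Sup.of_tame h.bg.tame.choose_spec
  obtain ⟨a, b, c⟩ := v
  rw [inY_mk, vl_mk, vl_mk, val_incl hS hi hj, val_incl hS hi hj]

theorem rep_inY (h : s.OK) {i : ℕ} (hi : 4 ≤ i) (hj : i ≤ j) {f : σ.C k → σ.Y j}
    (hf : σ.Rep E f) : σ.Rep E fun v => inY σ j i (f v) :=
  ⟨((s.bg.F.incl j i _).contDiff.comp_contDiffOn hf.1.fst).prodMk
    (((s.bg.F.incl j i _).contDiff.comp_contDiffOn hf.1.snd.fst).prodMk hf.1.snd.snd),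
    fun y => (vl_inY h hi hj _).trans (hf.2 y)⟩

theorem rep_fin {f : σ.C k → (Fin nc → ℂ) × (Fin nr → ℝ)} (hf : ContDiffOn ℝ ∞ f (σ.U k))
    {g : T → Cfg X.M κ ν → (Fin nc → ℂ) × (Fin nr → ℝ)}
    (e : ∀ y : σ.Pnt, f (σ.pt k y) = g y.1.1 y.1.2) :
    σ.Rep (j := j) (fun t c => (0, 0, g t c)) fun v => (0, 0, f v) :=
  ⟨contDiffOn_const.prodMk (contDiffOn_const.prodMk hf),
    fun y => Prod.ext val_zero (Prod.ext val_zero (e y))⟩

theorem rep_rp (h : ∃ f : σ.C k → σ.Y k, σ.Rep E f) : σ.Rep E (σ.rp k E) := by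
  rw [Cel.rp, dif_pos h]
  exact h.choose_spec

theorem repR_rr {g : T → Cfg X.M κ ν → ℝ} (h : ∃ f : σ.C k → ℝ, σ.RepR g f) :
    σ.RepR g (σ.rr k g) := by
  rw [Cel.rr, dif_pos h]
  exact h.choose_spec

theorem isOpen_U (h : σ.toFam.OK) : IsOpen (σ.U k) :=
  h.opn.preimage (continuous_snd.comp continuous_snd)

/-- representing maps are unique on the domain -/
theorem rep_unique (h : σ.toFam.OK) (hβ : s.Cr σ.β) (hk : 3 ≤ k) (hj : 4 ≤ j) {f g : σ.C k → σ.Y j}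
    (hf : σ.Rep E f) (hg : σ.Rep E g) : EqOn f g (σ.U k) := by
  refine EqOn.of_subset_closure (s := range (σ.pt k)) ?_ hf.1.continuousOn hg.1.continuousOn ?_
    (dense_pt h hβ hk)
  · rintro _ ⟨y, rfl⟩
    exact vl_inj h.site hj ((hf.2 y).trans (hg.2 y).symm)
  · rintro _ ⟨y, rfl⟩
    exact y.2.1

theorem cr_of_gd {β : BCs fun i => d.e (ty i)} (h : s.Gd β) : s.Cr β := fun i b k => (h i b k).crit

section map
variable (hM : MapStmt d ty X nc nr T) (h : σ.OK) (hk : 7 ≤ k)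
include hM h hk

theorem rep_e0 : σ.Rep σ.e0 (σ.rp k σ.e0) := by
  have hβ := cr_of_gd h.gd
  obtain ⟨f₁, h1⟩ := hM.loc s σ h.toOK hβ k hk
  obtain ⟨f₂, h2⟩ := hM.rad s σ h.toOK hβ k hk
  obtain ⟨f₃, h3, h3'⟩ := hM.cut s σ h.toOK hβ (fun t j => ((σ.P t).bg.ct j).η) h.η0 k hk
  choose f₄ h4 using fun j => (h.R j).1 k hk
  refine rep_rp ⟨_, rep_congr (rep_add (rep_add h1 (rep_inY h.site (by omega) k.le_succ h2))
    (rep_fin (h3.prodMk (contDiffOn_pi.2 fun j => (h4 j).1))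
      (g := fun t c => (fun j => (σ.P t).bg.l j c, σ.R t c))
      fun y => Prod.ext (funext (h3' y)) (funext fun j => (h4 j).2 y))) fun y => ?_⟩
  simp only [Cel.e0, Prod.mk_add_mk, sub_add_sub_cancel, add_zero, zero_add, Prod.mk_zero_zero]

theorem rep_eτ (w : d.W) : σ.Rep (σ.eτ w) (σ.rp k (σ.eτ w)) := by
  obtain ⟨f₂, h2⟩ := hM.ms s σ h.toOK h.gd w k hk
  obtain ⟨f₃, h3, h3'⟩ := hM.cut s σ h.toOK (cr_of_gd h.gd) (fun t => (σ.P t).η w) (h.η w) k hk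
  refine rep_rp ⟨_, rep_congr (rep_neg (rep_add (rep_inY h.site (by omega) k.le_succ h2)
    (rep_fin (h3.prodMk contDiffOn_const)
      (g := fun t c => (fun j => (σ.P t).bg.lη j ((σ.P t).η w j) c, 0))
      fun y => Prod.ext (funext (h3' y)) rfl))) fun y => ?_⟩
  simp only [Cel.eτ, Prod.mk_add_mk, add_zero, zero_add, Prod.neg_mk, neg_zero]
  rfl

end map

/-- the values of the perturbed equations -/
def eq (σ : Cel s nc nr T) (q : d.W →₀ ℝ) (t : T) (c : Cfg X.M κ ν) : Ev κ ν X nc nr :=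
  ((σ.P t).bg.eD c - ((σ.P t).pt q).D c, (σ.P t).bg.eC c - ((σ.P t).pt q).C c,
    fun j => (σ.P t).bg.l j c - ((σ.P t).pt q).S c j, σ.R t c)

theorem eq_sum (q : d.W →₀ ℝ) (t : T) (c : Cfg X.M κ ν) :
    σ.e0 t c + (q.sum fun w r => r • σ.eτ w t c) = eq σ q t c := by
  simp only [Cel.e0, Cel.eτ, eq, Finsupp.sum, Pc.pt]
  refine Prod.ext ?_ (Prod.ext (funext fun x => ?_) (Prod.ext (funext fun j => ?_) ?_))
  · simp [Prod.fst_sum]
  · simp [Prod.fst_sum, Prod.snd_sum, Finset.sum_apply, sub_eq_add_neg, add_assoc, add_comm]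
  · simp [Prod.fst_sum, Prod.snd_sum, Finset.sum_apply, sub_eq_add_neg]
  · simp [Prod.snd_sum]

theorem rep_F (h0 : σ.Rep σ.e0 (σ.rp k σ.e0)) (h1 : ∀ w, σ.Rep (σ.eτ w) (σ.rp k (σ.eτ w)))
    (q : d.W →₀ ℝ) : σ.Rep (eq σ q) (σ.F k q) :=
  ⟨h0.1.add (ContDiffOn.sum fun w _ => (h1 w).1.const_smul (q w)), fun y => by
    refine (show vl σ k (σ.F k q (σ.pt k y)) = _ from ?_).trans (eq_sum q _ _)
    rw [Cel.F, map_add, rep_vl h0, map_finsuppSum]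
    simp only [map_smul, rep_vl (h1 _)]⟩

theorem sol_iff_eq (q : d.W →₀ ℝ) (y : σ.Pnt) :
    σ.Sol q y ↔ (∃ x, y.1.2.Φ x ≠ 0) ∧ eq σ q y.1.1 y.1.2 = 0 := by
  simp only [eq, Prod.mk_eq_zero, sub_eq_zero, funext_iff, Pi.zero_apply]
  exact ⟨fun ⟨⟨h1, h2⟩, h3⟩ => ⟨h1.2, fun x => (h2.eq x trivial).1, fun x => (h2.eq x trivial).2,
      h2.l, congrFun h3⟩,
    fun ⟨h1, h2, h3, h4, h5⟩ => ⟨⟨⟨y.2.2, h1⟩, y.2.2.1, fun x _ => ⟨h2 x, h3 x⟩, h4⟩, funext h5⟩⟩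

theorem near_of_cvg (h : σ.toFam.OK) (hβ : s.Cr σ.β) (hk : 3 ≤ k) {ι : Type} {l : Filter ι}
    {y : ι → σ.Pnt} {y₀ : σ.Pnt} (hy : σ.Cvg l y y₀) {O : Set (σ.C k)} (hO : O ∈ 𝓝 (σ.pt k y₀)) :
    ∀ᶠ i in l, ∃ y', σ.pt k y' ∈ O ∧ σ.Eqv (y i) y' := by
  obtain ⟨ε, hε, hO⟩ := Metric.nhds_basis_closedBall.mem_iff.1 hO
  exact (hy (k + 1) ε hε).mono fun i ⟨y', h1, h2⟩ =>
    ⟨y', hO (mem_closedBall_iff_norm.2 ((norm_le_dk h hβ hk y' y₀).trans h2)), h1⟩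

variable (d ty X nc nr T) in
/-- **SW-REP** -/
theorem repStmt (hM : MapStmt d ty X nc nr T) : RepStmt d ty X nc nr T := fun _ σ h k hk =>
  ⟨rep_e0 hM h hk, rep_eτ hM h hk, fun q y => (sol_iff_eq q y).trans (and_congr_right fun _ => by
      rw [← rep_vl (rep_F (rep_e0 hM h hk) (rep_eτ hM h hk) q) y]
      exact map_eq_zero_iff _ (vl_inj h.site (by omega))),
    fun _ _ _ _ hy _ hO => near_of_cvg h.toOK (cr_of_gd h.gd) (by omega) hy hO⟩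

end Crest.Agent.X212.Pb50
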