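import Crest.Agent.X212.Sw.Cyl
import Crest.Agent.X212.Kop92.Cut
import Crest.Agent.X212.Wz78.Int

/-!
# Row 212, SW-PB (helper50): the action of circle valued functions, pointwise
-/

set_option autoImplicit false
set_option linter.unusedSectionVars false
noncomputable section
open scoped Manifold ContDiff Topology InnerProductSpace
open MeasureTheory Set Function Filter

namespace Crest.Agent.X212.Pb50
open An Sw Sob92
open Wz78 (SA nab curv dir dv_mul dv_add' dv_sub' frm)
open Eqv71 (cs_mul cs_one map_cs csL)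

variable {κ lam ν : Type} [Fintype κ] [Fintype lam] [Fintype ν] [DecidableEq ν]
  {E : Type} [NormedAddCommGroup E] [NormedSpace ℝ E] [FiniteDimensional ℝ E]
  [MeasurableSpace E] [BorelSpace E]
  {HM : Type} [TopologicalSpace HM] {I : ModelWithCorners ℝ E HM}
  {M : Type} [TopologicalSpace M] [ChartedSpace HM M] [IsManifold I ∞ M] [MeasurableSpace M]
  {ι : Type} [Fintype ι] {u v : M → ℂ} {x : M} {O : Set M}

/-! ### algebra -/

/-- complex scalars as a bilinear map -/
def cB (J : En ν) : ℂ →L[ℝ] En ν := Complex.reCLM.smulRight 1 + Complex.imCLM.smulRight J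

theorem cB_apply (J : En ν) (z : ℂ) (w : Eu ν) : cB J z w = cs J z w := rfl

theorem cs_comm {J T : En ν} (h : J * T = T * J) (z : ℂ) (w : Eu ν) :
    T (cs J z w) = cs J z (T w) := map_cs (u := T) h.symm z w

theorem inner_cs {J : En ν} (h : J * J = -1) (hs : Skw J) {z : ℂ} (hz : ‖z‖ = 1) (a b : Eu ν) :
    ⟪cs J z a, cs J z b⟫_ℝ = ⟪a, b⟫_ℝ := by
  have h1 : ⟪J a, J b⟫_ℝ = ⟪a, b⟫_ℝ := by
    rw [hs, show J (J b) = -b from congrArg (fun T : En ν => T b) h, inner_neg_right, neg_neg]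
  have h2 : z.re * z.re + z.im * z.im = 1 := by
    rw [← Complex.normSq_apply, ← Complex.sq_norm, hz, one_pow]
  simp only [cs, inner_add_left, inner_add_right, real_inner_smul_left, real_inner_smul_right, h1,
    hs a b]
  linear_combination ⟪a, b⟫_ℝ * h2

theorem norm_cs {J : En ν} (h : J * J = -1) (hs : Skw J) {z : ℂ} (hz : ‖z‖ = 1) (a : Eu ν) :
    ‖cs J z a‖ = ‖a‖ := by
  rw [norm_eq_sqrt_real_inner, inner_cs h hs hz, ← norm_eq_sqrt_real_inner]

/-! ### the logarithmic derivative -/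

/-- the one-form `-i u⁻¹ du` -/
def th (F : Pre I M ι) (u : M → ℂ) (i : ι) (x : M) : ℝ := (star (u x) * F.D i u x).im

variable (I) in
/-- a gauge transformation near `x` -/
structure LG (u : M → ℂ) (x : M) : Prop where
  sm : SA I u x
  one : ∀ᶠ y in 𝓝 x, ‖u y‖ = 1

theorem LG.of_gau (h : Gau I u) (x : M) : LG I u x := ⟨h.1 x, .of_forall h.2⟩

theorem LG.of_on (h : GauOn I u O) (hO : IsOpen O) (hx : x ∈ O) : LG I u x :=
  ⟨h.1.contMDiffAt (hO.mem_nhds hx), (hO.eventually_mem hx).mono h.2⟩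

theorem sa_star (h : SA I u x) : SA I (fun y => star (u y)) x :=
  (Complex.conjCLE : ℂ →L[ℝ] ℂ).contMDiff.contMDiffAt.comp x h

theorem D_star (F : Pre I M ι) (h : SA I u x) (i : ι) :
    F.D i (fun y => star (u y)) x = star (F.D i u x) :=
  dv_clm (Complex.conjCLE : ℂ →L[ℝ] ℂ) h.md

theorem sa_D {N : Type} [NormedAddCommGroup N] [NormedSpace ℝ N] (F : Pre I M ι) {f : M → N}
    (h : SA I f x) (i : ι) : SA I (F.D i f) x := dv_smoothAt (F.sm i x) h

theorem sa_th (F : Pre I M ι) (h : SA I u x) (i : ι) : SA I (th F u i) x :=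
  Complex.imCLM.contMDiff.contMDiffAt.comp x ((sa_star h).mul (sa_D F h i))

theorem star_mul_one {z : ℂ} (h : ‖z‖ = 1) : star z * z = 1 := by
  rw [Complex.star_def, Complex.conj_mul', h]; simp

theorem LG.D (h : LG I u x) (F : Pre I M ι) (i : ι) :
    F.D i u x = th F u i x • (Complex.I * u x) := by
  have h1 : F.D i (fun y => star (u y) * u y) x = 0 :=
    (dv_congr (v := fun _ => (1 : ℂ)) (h.one.mono fun y hy => star_mul_one hy)).trans (by simp)
  rw [Pre.D_def, dv_mul (sa_star h.sm) h.sm, ← Pre.D_def, ← Pre.D_def, D_star F h.sm] at h1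
  have h2 := star_mul_one h.one.self_of_nhds
  have h3 : star (u x) * F.D i u x = th F u i x * Complex.I := by
    refine Complex.ext ?_ (by simp [th])
    have := congrArg Complex.re h1
    simp only [Complex.add_re, Complex.mul_re, Complex.star_def, Complex.conj_re, Complex.conj_im,
      Complex.zero_re, Complex.ofReal_re, Complex.I_re, Complex.ofReal_im, Complex.I_im] at this ⊢
    linarith
  rw [Complex.real_smul]
  linear_combination u x * h3 - F.D i u x * h2

theorem D_th (F : Pre I M ι) (h : SA I u x) (i j : ι) : F.D i (th F u j) x =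
    (star (F.D i u x) * F.D j u x + star (u x) * F.D i (F.D j u) x).im := by
  rw [← D_star F h]
  exact (dv_clm Complex.imCLM ((sa_star h).mul (sa_D F h j)).md).trans
    (congrArg Complex.im (dv_mul (sa_star h) (sa_D F h j)))

/-- the logarithmic derivative is closed -/
theorem LG.closed (h : LG I u x) (F : Fr I M ι) (i j : ι) :
    F.D i (th F.toPre u j) x - F.D j (th F.toPre u i) x = ∑ k, F.c i j k x * th F.toPre u k x := by
  have h1 := (frm F).brV i j h.sm
  have h2 : ∀ i j, (star (F.D i u x) * F.D j u x).im = 0 := fun i j => by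
    rw [h.D, h.D]; simp; ring
  have h3 := congrArg (fun z => (star (u x) * z).im) h1
  simp only [mul_sub, Complex.sub_im, Finset.mul_sum, Complex.im_sum, mul_smul_comm,
    Complex.smul_im, smul_eq_mul] at h3
  rw [D_th _ h.sm, D_th _ h.sm, Complex.add_im, Complex.add_im, h2, h2, zero_add, zero_add]
  exact h3

theorem th_P (F : Fr I M ι) (u : M → ℂ) (i : ι) (x : M) :
    ∑ j, F.P i j x * th F.toPre u j x = th F.toPre u i x := by
  have h3 := congrArg (fun z => (star (u x) * z).im) ((frm F).projD i u x)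
  simp only [Finset.mul_sum, Complex.im_sum, mul_smul_comm, Complex.smul_im, smul_eq_mul] at h3
  exact h3

theorem th_one (F : Pre I M ι) (i : ι) (x : M) : th F (fun _ => 1) i x = 0 := by
  simp [th, Pre.D_def]

theorem th_mul (F : Pre I M ι) (hu : LG I u x) (hv : LG I v x) (i : ι) :
    th F (fun y => u y * v y) i x = th F u i x + th F v i x := by
  have h1 := star_mul_one hu.one.self_of_nhds
  have h2 := star_mul_one hv.one.self_of_nhds
  have h : star (u x * v x) * F.D i (fun y => u y * v y) x =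
      star (u x) * F.D i u x + star (v x) * F.D i v x := by
    rw [Pre.D_def, dv_mul hu.sm hv.sm, ← Pre.D_def, ← Pre.D_def, star_mul']
    linear_combination star (u x) * F.D i u x * h2 + star (v x) * F.D i v x * h1
  exact (congrArg Complex.im h).trans (Complex.add_im _ _)

theorem LG.star (h : LG I u x) : LG I (fun y => star (u y)) x :=
  ⟨sa_star h.sm, h.one.mono fun y hy => by rw [norm_star, hy]⟩

theorem th_star (F : Pre I M ι) (h : SA I u x) (i : ι) :
    th F (fun y => star (u y)) i x = -th F u i x := by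
  rw [th, D_star F h, ← star_mul', th, Complex.star_def, Complex.conj_im]

/-! ### the background -/

variable {nc : ℕ} {b : Bg I M κ lam ν nc} {c : Cfg M κ ν}

variable (b c) in
/-- admissible near `x` -/
structure LA (x : M) : Prop where
  sa : ∀ i, SA I (c.a i) x
  sΦ : SA I c.Φ x
  pa : ∀ i, ∑ j, b.B.P i j x * c.a j x = c.a i x
  pΦ : b.pp x (c.Φ x) = c.Φ x

theorem LA.of_adm (h : b.Adm c) (x : M) : LA b c x :=
  ⟨fun i => h.sa i x, h.sΦ x, fun i => h.pa i x, h.pΦ x⟩

theorem LA.of_on (h : b.AdmOn c O) (hO : IsOpen O) (hx : x ∈ O) : LA b c x :=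
  ⟨fun i => (h.sa i).contMDiffAt (hO.mem_nhds hx), h.sΦ.contMDiffAt (hO.mem_nhds hx),
    fun i => h.pa i x hx, h.pΦ x hx⟩

theorem adm_of (h : ∀ x, LA b c x) : b.Adm c :=
  ⟨fun i x => (h x).sa i, fun x => (h x).sΦ, fun i x => (h x).pa i, fun x => (h x).pΦ⟩

theorem admOn_of (h : ∀ x ∈ O, LA b c x) : b.AdmOn c O :=
  ⟨fun i x hx => ((h x hx).sa i).contMDiffWithinAt, fun x hx => (h x hx).sΦ.contMDiffWithinAt,
    fun i x hx => (h x hx).pa i, fun x hx => (h x hx).pΦ⟩

theorem act_a (b : Bg I M κ lam ν nc) (u : M → ℂ) (c : Cfg M κ ν) (i : Option κ) :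
    (b.act u c).a i = fun x => c.a i x - th b.F.toPre u i x := rfl

theorem act_Φ (b : Bg I M κ lam ν nc) (u : M → ℂ) (c : Cfg M κ ν) :
    (b.act u c).Φ = fun x => cB b.m.J (u x) (c.Φ x) := rfl

section ok
variable (hb : b.OK)
include hb

theorem Jp (x : M) : b.m.J * b.m.p x = b.m.p x * b.m.J := hb.m.Jp x trivial

theorem Jρ (i : Option κ) (x : M) : b.m.J * b.m.ρ i x = b.m.ρ i x * b.m.J := hb.m.Jρ i x trivial

theorem Jvol (x : M) : b.m.J * b.vol x = b.vol x * b.m.J := by
  have h : ∀ i, Commute b.m.J (b.m.ρ i x) := fun i => Jρ hb i x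
  refine Commute.smul_right (Commute.sum_right _ _ _ fun i _ => Commute.sum_right _ _ _ fun j _ =>
    Commute.sum_right _ _ _ fun k _ => Commute.sum_right _ _ _ fun l _ => ?_) _
  exact ((((h i).mul_right (h j)).mul_right (h k)).mul_right (h l)).smul_right _

theorem Jpp (x : M) : b.m.J * b.pp x = b.pp x * b.m.J :=
  (Commute.sub_right (Jp hb x) (Jvol hb x)).smul_right _

theorem p_vol (x : M) : b.m.p x * b.vol x = b.vol x := by
  simp only [Bg.vol, mul_smul_comm, Finset.mul_sum, ← mul_assoc, (hb.m.cl x trivial).pl]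

theorem p_pp (x : M) : b.m.p x * b.pp x = b.pp x := by
  rw [Bg.pp, mul_smul_comm, mul_sub, hb.m.pidem x trivial, p_vol hb]

theorem LA.pΦ' (h : LA b c x) : b.m.p x (c.Φ x) = c.Φ x := by
  rw [← h.pΦ, ← mul_apply_eq_comp, p_pp hb]

theorem JW (c : Cfg M κ ν) (i : Option κ) (x : M) : b.m.J * b.W c i x = b.W c i x * b.m.J :=
  Commute.add_right (hb.AJ i x) (((Commute.refl _).mul_right (Jp hb x)).smul_right _)

theorem sa_jp (x : M) : SA I b.jp x := Wz78.SA.mul contMDiffAt_const (hb.cc.sp x)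

theorem D_jp (i : Option κ) (x : M) :
    dv I (b.F.e i) b.jp x = b.jp x * b.A i x - b.A i x * b.jp x := by
  have h1 : dv I (b.F.e i) b.jp x = b.m.J * dv I (b.F.e i) b.m.p x :=
    (dv_mul (f := fun _ => b.m.J) contMDiffAt_const (hb.cc.sp x)).trans (by simp)
  rw [h1, eq_neg_of_add_eq_zero_left (hb.cc.par i x), Bg.jp, neg_sub, mul_sub, ← mul_assoc,
    ← mul_assoc, ← mul_assoc, hb.AJ]

/-- the curvature of `A + a J` -/
theorem curv_W (h : ∀ i, SA I (c.a i) x) (i j : Option κ) :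
    curv I b.F.e b.F.c (b.W c) i j x = curv I b.F.e b.F.c b.A i j x +
      (b.F.D i (c.a j) x - b.F.D j (c.a i) x - ∑ k, b.F.c i j k x * c.a k x) • b.jp x := by
  have h1 : ∀ i j, dv I (b.F.e i) (b.W c j) x = dv I (b.F.e i) (b.A j) x +
      (b.F.D i (c.a j) x • b.jp x + c.a j x • (b.jp x * b.A i x - b.A i x * b.jp x)) :=
    fun i j => by
      rw [← D_jp hb, Pre.D_def, ← dv_smul (h j).md (sa_jp hb x).md]
      exact dv_add' (hb.cc.sm j x) ((h j).smul (sa_jp hb x))
  simp only [curv, h1]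
  simp only [Bg.W, mul_add, add_mul, smul_mul_assoc, mul_smul_comm, smul_add,
    Finset.sum_add_distrib, smul_smul, sub_smul, Finset.sum_smul]
  module

theorem LA.act (h : LA b c x) (hu : SA I u x) : LA b (b.act u c) x where
  sa i := (h.sa i).sub (sa_th _ hu i)
  sΦ := ((cB b.m.J).contMDiff.contMDiffAt.comp x hu).clm_apply h.sΦ
  pa i := by
    simp only [act_a, mul_sub, Finset.sum_sub_distrib, h.pa]
    rw [← hb.G.P, th_P]
  pΦ := (cs_comm (Jpp hb x) _ _).trans (congrArg _ h.pΦ)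

theorem nab_act (h : LA b c x) (hu : LG I u x) (i : Option κ) :
    nab I b.F.e (b.W (b.act u c)) i (b.act u c).Φ x =
      cs b.m.J (u x) (nab I b.F.e (b.W c) i c.Φ x) := by
  have h1 : b.jp x (cs b.m.J (u x) (c.Φ x)) = cs b.m.J (Complex.I * u x) (c.Φ x) := by
    rw [← cs_mul hb.m.Jsq, Bg.jp, mul_apply_eq_comp, cs_comm (Jp hb x), h.pΦ' hb]
    simp [cs]
  have h2 : b.W (b.act u c) i x = b.W c i x - th b.F.toPre u i x • b.jp x := by
    simp only [Bg.W, act_a, sub_smul]; abel
  rw [nab, nab, act_Φ, dv_bil _ hu.sm.md h.sΦ.md, ← Pre.D_def, hu.D, h2, map_smul, ← cB_apply,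
    map_add]
  simp only [cB_apply, sub_apply, smul_apply, h1, cs_comm (JW hb c i x)]
  abel

theorem eD_act (h : LA b c x) (hu : LG I u x) :
    b.eD (b.act u c) x = cs b.m.J (u x) (b.eD c x) := by
  simp only [Bg.eD, dir, nab_act hb h hu, ← cB_apply, map_add, map_sum]
  simp only [cB_apply, cs_comm (Jρ hb _ x), act_Φ, cs_comm (hb.msJ x)]

theorem fc_act (h : ∀ i, SA I (c.a i) x) (hu : LG I u x) : b.fc (b.act u c) x = b.fc c x := by
  have h1 : ∀ i j, b.F.D i ((b.act u c).a j) x = b.F.D i (c.a j) x - b.F.D i (th b.F.toPre u j) x :=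
    fun i j => dv_sub' (h j) (sa_th _ hu.sm j)
  refine congrArg (WithLp.toLp 2) (funext fun s => ?_)
  rw [curv_W hb h, curv_W hb fun i => (h i).sub (sa_th _ hu.sm i), h1, h1]
  simp only [act_a, mul_sub, Finset.sum_sub_distrib, ← hu.closed]
  congr 5
  ring

theorem qd_cs {z : ℂ} (hz : ‖z‖ = 1) (x : M) (φ ψ : Eu ν) :
    b.qd x (cs b.m.J z φ) (cs b.m.J z ψ) = b.qd x φ ψ := by
  refine congrArg (WithLp.toLp 2) (funext fun s => ?_)
  rw [cs_comm (Jρ hb _ x), cs_comm (Jρ hb _ x), cs_comm rfl, inner_cs hb.m.Jsq hb.m.Jsk hz]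

theorem eC_act (h : ∀ i, SA I (c.a i) x) (hu : LG I u x) : b.eC (b.act u c) x = b.eC c x := by
  rw [Bg.eC, Bg.eC, fc_act hb h hu]
  exact congrArg (fun t => b.p2 x (b.fc c x - b.w • t) - b.om x)
    (qd_cs hb hu.one.self_of_nhds x _ _)

theorem norm_act (hu : ‖u x‖ = 1) : ‖(b.act u c).Φ x‖ = ‖c.Φ x‖ := norm_cs hb.m.Jsq hb.m.Jsk hu _

theorem act_act (hu : Gau I u) (hv : Gau I v) (c : Cfg M κ ν) :
    b.act v (b.act u c) = b.act (fun y => v y * u y) c := by
  refine Cfg.ext (funext fun i => funext fun x => ?_) (funext fun x => cs_mul hb.m.Jsq _ _ _)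
  simp only [act_a, th_mul _ (.of_gau hv x) (.of_gau hu x)]
  ring

omit hb in
theorem act_one (c : Cfg M κ ν) : b.act (fun _ => 1) c = c :=
  Cfg.ext (funext fun i => funext fun x => by rw [act_a]; simp only [th_one, sub_zero])
    (funext fun _ => cs_one _ _)

/-- the cut functions have weight one -/
theorem cut_act (h : b.Adm c) (hu : Gau I u) (j : Fin nc) : ∃ z : ℂ, ‖z‖ = 1 ∧ ∀ η,
    b.lη j η (b.act u c) = z * b.lη j η c := by
  have C := hb.ct j
  obtain ⟨R, hR⟩ := Kop92.exists_sp C.cρ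
  let t : Cfg M κ ν := ⟨th b.F.toPre u, 0⟩
  have ct : ∀ c : Cfg M κ ν, (∀ i, Sm I (c.a i)) → Continuous (b.ta j c) := fun c hc =>
    ((innerSL ℝ).continuous.comp ((PiLp.continuous_toLp 2 _).comp (continuous_pi fun k =>
      (hc k).continuous.comp C.sm.continuous))).clm_comp C.sθ.continuous
  have st : ∀ i, Sm I (t.a i) := fun i x => sa_th _ (hu.1 x) i
  obtain ⟨χ, k1, k2⟩ := Kop92.exists_log (U := u ∘ (b.ct j).Ξ) (β := b.ta j t)
    (fun y => hu.2 _) fun y => by
      have d1 := (hu.1 ((b.ct j).Ξ y)).mdifferentiableAt (by simp)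
      have d2 := (C.sm y).mdifferentiableAt (by simp)
      refine (d1.comp y d2).differentiableAt.hasFDerivAt.congr_fderiv
        (ContinuousLinearMap.ext fun w => ?_)
      rw [← mfderiv_eq_fderiv]
      refine (mfderiv_comp_apply y d1 d2 w).trans ?_
      refine ((congrArg _ (C.θ y w)).trans (map_sum _ _ _)).trans ?_
      have e : ∀ k, mfderiv I 𝓘(ℝ, ℂ) u ((b.ct j).Ξ y) ((b.ct j).θ y w k • b.F.e k ((b.ct j).Ξ y)) =
          (b.ct j).θ y w k • th b.F.toPre u k ((b.ct j).Ξ y) • (Complex.I * u ((b.ct j).Ξ y)) :=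
        fun k => by rw [map_smul, ← (LG.of_gau hu _).D]; rfl
      refine (Finset.sum_congr rfl fun k _ => e k).trans ?_
      simp [Bg.ta, PiLp.inner_apply, t, Finset.sum_mul, mul_assoc, -Fintype.sum_option]
      rfl
  have e1 : b.ta j c = b.ta j (b.act u c) + b.ta j t := funext fun y => by
    ext w
    simp [Bg.ta, PiLp.inner_apply, t, act_a, mul_sub, Finset.sum_sub_distrib]
  refine ⟨Complex.exp ((∫ y, (b.ct j).ρ y * χ y ∂leb R4 : ℝ) * Complex.I),
    Complex.norm_exp_ofReal_mul_I _, fun η => ?_⟩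
  rw [Bg.lη, Bg.lη, ← integral_const_mul]
  refine congrArg _ (funext fun y => ?_)
  rw [e1, Kop92.K_add C.sρ.continuous hR (ct _ fun i => (h.sa i).sub (st i)) (ct t st),
    Kop92.K_d C.sρ.continuous hR C.one k1 (ct t st)]
  rw [show (b.act u c).Φ ((b.ct j).Ξ y) = cs b.m.J ((u ∘ (b.ct j).Ξ) y) _ from rfl,
    Kop92.hm_cs_right hb.m.Jsq, k2, ← mul_assoc, ← mul_assoc, ← Complex.exp_add, ← Complex.exp_add]
  congr 2
  push_cast
  ring

end ok

end Crest.Agent.X212.Pb50
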