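import Crest.Agent.X212.Pb50.Hi

/-!
# Row 212, SW-PB (helper50): allowed gauge transformations; `PbStmt`
-/

set_option autoImplicit false
set_option linter.unusedSectionVars false
noncomputable section
open scoped Manifold ContDiff Topology InnerProductSpace
open MeasureTheory Set Function Filter

namespace Crest.Agent.X212.Pb50
open An Sw Sob92 Cyf70 Sw.En3
open Wz78 (SA)
open Nd18 (Jv isOpen_Jv)
open M (Mf pm)

variable {κ lam ν : Type} [Fintype κ] [Fintype lam] [Fintype ν] [DecidableEq ν]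
  {X : Mf 4} {nc : ℕ} {V : Type} [NormedAddCommGroup V] [NormedSpace ℝ V]

section nk
variable {e : En3 κ lam ν} {b : Bg X.I X.M κ lam ν nc} (K : Nk e b) {s : Bool}
  {c : Cfg X.M κ ν} {u u' : X.M → ℂ} {v : e.YC}

theorem ev_J (h : K.Inf s) : ∀ᶠ x in nd e.Y.M s, x.2 ∈ K.J := by
  cases s
  · have hp : K.p = none := h
    refine nd_basis.eventually_iff.2 ⟨-K.q.getD 0, trivial, fun x hx => ⟨by simp [hp], fun a ha => ?_⟩⟩
    simpa [pm, Option.mem_def.1 ha] using hx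
  · have hq : K.q = none := h
    refine nd_basis.eventually_iff.2 ⟨K.p.getD 0, trivial, fun x hx => ⟨fun a ha => ?_, by simp [hq]⟩⟩
    simpa [pm, Option.mem_def.1 ha] using hx

theorem ev_ψ (h : K.Inf s) : ∀ᶠ x in nd e.Y.M s, x ∈ K.ψ.source :=
  (ev_J K h).mono fun _ hx => K.mem_src.2 hx

theorem gl_iff (h : K.Inf s) {f : e.Y.M × ℝ → V} (hf : ∀ x ∈ K.ψ.source, SA (IC e.Y.I) f x) :
    (∃ T, Hh e.D.Z.toPre (univ ×ˢ K.far s T) f) ↔ Gl e.D.F.toPre s f :=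
  ⟨fun ⟨_, hT⟩ => gl_of_hh (ev_J K h) (fun x hx => hf x (K.mem_src.2 hx)) hT,
    fun h => h.hh isOpen_Jv⟩

theorem far_mono {T T' : ℝ} (h : T ≤ T') : (univ : Set e.Y.M) ×ˢ K.far s T' ⊆ univ ×ˢ K.far s T :=
  fun _ hx => ⟨trivial, hx.2.1, h.trans_lt hx.2.2⟩

theorem asyG_iff (h : K.Inf s) (hu : Sm X.I u) :
    K.AsyG s u ↔ Gl e.D.F.toPre s fun x => u (K.ψ x) - 1 :=
  gl_iff K h fun _ hx => (sa_ψ K hx (hu _)).sub contMDiffAt_const

theorem asy_iff (h : K.Inf s) (hc : b.Adm c) (hv : e.cyl.Adm (fz v)) : K.Asy s v c ↔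
    (∀ i, Gl e.D.F.toPre s fun x => (K.pb c).a i x - (fz v).a i x) ∧
      Gl e.D.F.toPre s fun x => (K.pb c).Φ x - v.Φ x.1 := by
  have h1 := fun i => gl_iff K h (f := fun x => (K.pb c).a i x - (fz v).a i x)
    fun x hx => (sa_ψ K hx (hc.sa i _)).sub (hv.sa i x)
  have h2 := gl_iff K h (f := fun x => (K.pb c).Φ x - v.Φ x.1)
    fun x hx => (sa_ψ K hx (hc.sΦ _)).sub (hv.sΦ x)
  refine ⟨fun ⟨T, k1, k2⟩ => ⟨fun i => (h1 i).1 ⟨T, k1 i⟩, h2.1 ⟨T, k2⟩⟩, fun ⟨k1, k2⟩ => ?_⟩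
  choose T hT using fun i => (h1 i).2 (k1 i)
  obtain ⟨T', hT'⟩ := h2.2 k2
  obtain ⟨B, hB⟩ := Finite.exists_le T
  exact ⟨max B T', fun i => hh_mono (hT i) (far_mono K ((hB i).trans (le_max_left _ _))),
    hh_mono hT' (far_mono K (le_max_right _ _))⟩

theorem gb_fz {f : e.Y.M × ℝ → V} (h : Sm (IC e.Y.I) f) (h' : ∀ x, f x = f (x.1, 0)) :
    Gb e.D.F.toPre s f := (gb_fst (sm_slice_fst h 0)).congr (.of_forall h')

theorem fz_a (v : e.YC) (i : Option κ) (x : e.Y.M × ℝ) : (fz v).a i x = (fz v).a i (x.1, 0) := by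
  cases i <;> rfl

variable (he : e.OK)
include he

theorem gb_of {f g : e.Y.M × ℝ → V} (h : Gl e.D.F.toPre s fun x => f x - g x)
    (hg : Gb e.D.F.toPre s g) : Gb e.D.F.toPre s f :=
  ((h.gb he.cyl.tame.choose_spec).add hg).congr (.of_forall fun _ => (sub_add_cancel _ _).symm)

theorem gb_u (h : K.Inf s) (hu : Sm X.I u) (g : K.AsyG s u) :
    Gb e.D.F.toPre s fun x => u (K.ψ x) :=
  gb_of he ((asyG_iff K h hu).1 g) ⟨_, Cb_const 1, .rfl⟩

theorem asyG_mul (h : K.Inf s) (hu : Sm X.I u) (hu' : Sm X.I u') (g : K.AsyG s u)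
    (g' : K.AsyG s u') : K.AsyG s fun x => u' x * u x :=
  (asyG_iff K h fun x => Wz78.SA.mul (hu' x) (hu x)).2
    (((((asyG_iff K h hu).1 g).bil (ContinuousLinearMap.mul ℝ ℂ) (gb_u K he h hu' g')).add
      ((asyG_iff K h hu').1 g')).congr (.of_forall fun x => by
        simp only [ContinuousLinearMap.mul_apply']; ring))

omit he in
theorem asyG_star (h : K.Inf s) (hu : Sm X.I u) (g : K.AsyG s u) :
    K.AsyG s fun x => star (u x) :=
  (asyG_iff K h fun x => sa_star (hu x)).2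
    ((((asyG_iff K h hu).1 g).clm (Complex.conjCLE : ℂ →L[ℝ] ℂ)).congr (.of_forall fun x => by simp))

omit he in
theorem asyG_one (h : K.Inf s) : K.AsyG s fun _ => 1 :=
  (asyG_iff K h contMDiff_const).2 ⟨0, Hi.zero, .of_forall fun _ => sub_self _⟩

theorem asy_act (hb : b.OK) (h : K.Inf s) (hc : b.Adm c) (hv : e.cyl.Adm (fz v)) (hu : Gau X.I u)
    (g : K.AsyG s u) (a : K.Asy s v c) : K.Asy s v (b.act u c) := by
  obtain ⟨a1, a2⟩ := (asy_iff K h hc hv).1 a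
  have g1 := (asyG_iff K h hu.1).1 g
  have g2 := gb_u K he h hu.1 g
  refine (asy_iff K h (adm_of fun x => (LA.of_adm hc x).act hb (hu.1 x)) hv).2 ⟨fun i => ?_, ?_⟩
  · refine ((a1 i).add (((g1.D i).bil (ContinuousLinearMap.mul ℝ ℂ ∘L (Complex.conjCLE : ℂ →L[ℝ] ℂ))
      g2).clm (-Complex.imCLM))).congr ((ev_ψ K h).mono fun x hx => ?_)
    have : (cylP e.D.F.toPre).D i (fun x => u (K.ψ x) - 1) x = b.F.D i u (K.ψ x) := by
      rw [D_ψ K hx]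
      exact (Wz78.dv_sub' (sa_ψ K hx (hu.1 _)) contMDiffAt_const).trans (by simp; rfl)
    simp only [this]
    show c.a i (K.ψ x) - th b.F.toPre u i (K.ψ x) - _ =
      c.a i (K.ψ x) - _ + -th b.F.toPre u i (K.ψ x)
    ring
  · refine ((a2.bil (cB b.m.J) g2).add (g1.bil (cB b.m.J).flip
      (gb_fz (s := s) hv.sΦ fun _ => rfl))).congr (.of_forall fun x => ?_)
    show cB b.m.J (u (K.ψ x)) (c.Φ (K.ψ x)) - v.Φ x.1 =
      cB b.m.J (u (K.ψ x)) (c.Φ (K.ψ x) - v.Φ x.1) + cB b.m.J (u (K.ψ x) - 1) (v.Φ x.1)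
    rw [map_sub, map_sub, sub_apply, cB_apply _ 1, Eqv71.cs_one]
    abel

end nk

variable {N : Type} [Fintype N] {e : N → En3 κ lam ν} {P : Pz X nc e} (hP : P.OK) {β : BCs e}
  {c : Cfg X.M κ ν} {u u' : X.M → ℂ}
include hP

/-- bounded along the infinite ends -/
theorem cb_of_ends {f : X.M → V} (hf : Sm X.I f) (h : ∀ i s, ∀ K ∈ P.nk i, K.Inf s →
    Gb (e i).D.F.toPre s fun x => f (K.ψ x)) : P.bg.F.Cb f := by
  refine Cb_of_bdd hf fun w => ?_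
  have h1 : ∀ p : N × Bool, ∃ T C : ℝ, ∀ K ∈ P.nk p.1, K.Inf p.2 → ∀ x ∈ univ ×ˢ K.far p.2 T,
      ‖P.bg.F.Dw w f (K.ψ x)‖ ≤ C := fun ⟨i, s⟩ => by
    by_cases hK : ∃ K ∈ P.nk i, K.Inf s
    · obtain ⟨K, hK, hs⟩ := hK
      obtain ⟨C, hC⟩ := (h i s K hK hs).bdd w
      obtain ⟨T, -, hT⟩ := nd_basis.eventually_iff.1 hC
      refine ⟨T, C, fun K' hK' _ x hx => ?_⟩
      obtain rfl := Option.mem_unique hK hK'
      rw [Dw_ψ K (K.mem_src.2 hx.2.1)]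
      exact hT hx.2.2
    · exact ⟨0, 0, fun K h1 h2 => (hK ⟨K, h1, h2⟩).elim⟩
  choose T C hT using h1
  obtain ⟨T', hT'⟩ := Finite.exists_le T
  obtain ⟨C', hC'⟩ := Finite.exists_le C
  obtain ⟨C₀, h0⟩ := (hP.cpt T').exists_bound_of_continuousOn (sm_Dw hf w).continuous.continuousOn
  refine ⟨max C₀ C', fun z => ?_⟩
  by_cases hz : z ∈ P.core T'
  · exact (h0 z hz).trans (le_max_left _ _)
  · simp only [Pz.core, mem_ofPred, not_forall, not_not] at hz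
    obtain ⟨i, s, K, hK, hs, x, hx, rfl⟩ := hz
    exact (hT (i, s) K hK hs x (far_mono K (hT' _) hx)).trans ((hC' _).trans (le_max_right _ _))

omit hP in
theorem al_one : P.Al fun _ => 1 :=
  ⟨⟨contMDiff_const, fun _ => norm_one⟩, fun _ _ K _ h => asyG_one K h⟩

omit hP in
theorem al_star (h : P.Al u) : P.Al fun x => star (u x) :=
  ⟨⟨fun x => sa_star (h.1.1 x), fun x => (norm_star _).trans (h.1.2 x)⟩,
    fun i s K hK hs => asyG_star K hs h.1.1 (h.2 i s K hK hs)⟩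

theorem al_mul (h : P.Al u) (h' : P.Al u') : P.Al fun x => u' x * u x :=
  ⟨⟨fun x => Wz78.SA.mul (h'.1.1 x) (h.1.1 x), fun x => by rw [norm_mul, h.1.2, h'.1.2, one_mul]⟩,
    fun i s K hK hs => asyG_mul K (hP.en i) hs h.1.1 h'.1.1 (h.2 i s K hK hs) (h'.2 i s K hK hs)⟩

theorem act_star (hu : Gau X.I u) (c : Cfg X.M κ ν) :
    P.bg.act (fun x => star (u x)) (P.bg.act u c) = c := by
  rw [act_act hP.bg hu ⟨fun x => sa_star (hu.1 x), fun x => (norm_star _).trans (hu.2 x)⟩,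
    funext fun x => star_mul_one (hu.2 x), act_one]

theorem eqv_equiv : Equivalence P.Eqv where
  refl c := ⟨_, al_one, (act_one c).symm⟩
  symm := fun ⟨_, hu, h⟩ => ⟨_, al_star hu, h ▸ (act_star hP hu.1 _).symm⟩
  trans := fun ⟨_, hu, h⟩ ⟨_, hu', h'⟩ =>
    ⟨_, al_mul hP hu hu', by rw [h', h, act_act hP.bg hu.1 hu'.1]⟩

theorem as_act (hβ : P.Cr β) (h : P.As β c) (hu : P.Al u) : P.As β (P.bg.act u c) :=
  ⟨adm_of fun x => (LA.of_adm h.1 x).act hP.bg (hu.1.1 x), fun i s K hK hs =>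
    asy_act K (hP.en i) hP.bg hs h.1 (hβ i s ⟨K, hK, hs⟩).1 hu.1 (hu.2 i s K hK hs)
      (h.2 i s K hK hs)⟩

theorem as_cb (hβ : P.Cr β) (h : P.As β c) : (∀ i, P.bg.F.Cb (c.a i)) ∧ P.bg.F.Cb c.Φ := by
  have h1 := fun i s K hK hs => (asy_iff K hs h.1 (hβ i s ⟨K, hK, hs⟩).1).1 (h.2 i s K hK hs)
  exact ⟨fun j => cb_of_ends hP (h.1.sa j) fun i s K hK hs => gb_of (hP.en i) ((h1 i s K hK hs).1 j)
      (gb_fz ((hβ i s ⟨K, hK, hs⟩).1.sa j) (fz_a _ j)),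
    cb_of_ends hP h.1.sΦ fun i s K hK hs => gb_of (hP.en i) (h1 i s K hK hs).2
      (gb_fz (hβ i s ⟨K, hK, hs⟩).1.sΦ fun _ => rfl)⟩

theorem al_cb (h : P.Al u) : P.bg.F.Cb u :=
  cb_of_ends hP h.1.1 fun i s K hK hs => gb_u K (hP.en i) hs h.1.1 (h.2 i s K hK hs)

omit hP in
variable (κ lam ν) in
/-- **SW-PB** -/
theorem pb : PbStmt κ lam ν where
  loc _ _ _ _ _ _ _ hP q c _ K hK _ _ hp hc h0 := ⟨loc hP.toOK q c hK hp h0, admOn_pb K hc⟩
  cyl := cyl_pt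
  act _ _ _ _ _ _ _ hP _ _ hc hu := ⟨adm_of fun x => (LA.of_adm hc x).act hP.bg (hu.1 x),
    fun x => eD_act hP.bg (.of_adm hc x) (.of_gau hu x), p0D_act hP.toOK hc hu,
    funext fun x => fc_act hP.bg (fun i => hc.sa i x) (.of_gau hu x),
    funext fun x => eC_act hP.bg (fun i => hc.sa i x) (.of_gau hu x), p0C_act hP.toOK hc hu,
    tm_act hc hu, funext fun x => ed_act hP.bg (.of_adm hc x) (.of_gau hu x),
    ean_act hP.toOK hc hu, fun j => (cut_act hP.bg hc hu j).imp fun _ h => ⟨h.1, fun η _ => h.2 η⟩⟩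
  loca _ he _ _ _ _ _ _ _ h hu := loca he h hu
  eqv _ _ _ _ _ _ hP _ hβ := ⟨fun _ _ => as_act hP hβ,
    (eqv_equiv hP).comap Subtype.val, fun _ => as_cb hP hβ⟩

end Crest.Agent.X212.Pb50
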