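import Crest.Agent.X212.Pb50.Cyl

/-!
# Row 212, SW-PB (helper50): necks are cylinders; gauge covariance of the terms of a piece
-/

set_option autoImplicit false
set_option linter.unusedSectionVars false
noncomputable section
open scoped Manifold ContDiff Topology InnerProductSpace
open MeasureTheory Set Function Filter

namespace Crest.Agent.X212.Pb50
open An Sw Sob92 Cyf70 Sw.En3
open Wz78 (SA nab)
open Nd18 (Jv Dp isOpen_Jv)
open M (Mf)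

variable {κ lam ν : Type} [Fintype κ] [Fintype lam] [Fintype ν] [DecidableEq ν]
  {X : Mf 4} {nc : ℕ}

section nk
variable {e : En3 κ lam ν} {b : Bg X.I X.M κ lam ν nc} (K : Nk e b)
  {c : Cfg X.M κ ν} {u : X.M → ℂ} {x : e.Y.M × ℝ} {t : ℝ}

theorem src (ht : t ∈ K.J) (y : e.Y.M) : (y, t) ∈ K.ψ.source := K.mem_src.2 ht

theorem ev_src (hx : x ∈ K.ψ.source) : ∀ᶠ y in 𝓝 x, y ∈ K.ψ.source :=
  K.ψ.open_source.eventually_mem hx

section at_x
variable (hx : x ∈ K.ψ.source)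
include hx

theorem p2_ψ : b.p2 (K.ψ x) = e.cyl.p2 x := by
  refine congrArg (fun S => idx S (ContinuousLinearMap.id ℝ ℝ)) (funext fun s => funext fun t => ?_)
  simp only [Base.sd, Base.a2, Base.st, K.P _ _ x hx, K.o _ _ _ _ x hx]
  rfl

theorem vol_ψ : b.vol (K.ψ x) = e.cyl.vol x := by
  simp only [Bg.vol, K.o _ _ _ _ x hx, K.hρ _ x hx]
  rfl

theorem pp_ψ : b.pp (K.ψ x) = e.cyl.pp x := by
  rw [Bg.pp, vol_ψ K hx, K.hp x hx]
  rfl

theorem jp_ψ : b.jp (K.ψ x) = e.cyl.jp x := by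
  rw [Bg.jp, K.hJ, K.hp x hx]
  rfl

theorem W_ψ (c : Cfg X.M κ ν) (i : Option κ) : b.W c i (K.ψ x) = e.cyl.W (K.pb c) i x := by
  rw [Bg.W, K.hA i x hx, jp_ψ K hx]
  rfl

theorem D_ψ {V : Type} [NormedAddCommGroup V] [NormedSpace ℝ V] (f : X.M → V) (i : Option κ) :
    b.F.D i f (K.ψ x) = e.D.Z.D i (fun y => f (K.ψ y)) x :=
  (K.rel.D hx i (.of_forall fun _ => rfl)).symm

theorem Dw_ψ {V : Type} [NormedAddCommGroup V] [NormedSpace ℝ V] (f : X.M → V)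
    (w : List (Option κ)) : b.F.Dw w f (K.ψ x) = e.D.Z.Dw w (fun y => f (K.ψ y)) x :=
  (K.rel.Dw hx w (.of_forall fun _ => rfl)).symm

theorem sa_ψ {V : Type} [NormedAddCommGroup V] [NormedSpace ℝ V] {f : X.M → V}
    (h : SA X.I f (K.ψ x)) : SA (IC e.Y.I) (fun y => f (K.ψ y)) x := K.rel.sm hx h

theorem nab_ψ (c : Cfg X.M κ ν) (i : Option κ) : nab X.I b.F.e (b.W c) i c.Φ (K.ψ x) =
    nab (IC e.Y.I) e.cyl.F.e (e.cyl.W (K.pb c)) i (K.pb c).Φ x :=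
  (K.rel.nab hx i (W_ψ K hx c i).symm (.of_forall fun _ => rfl)).symm

theorem eD_ψ (c : Cfg X.M κ ν) : b.eD c (K.ψ x) = e.cyl.eD (K.pb c) x := by
  rw [Bg.eD, Bg.eD, K.hms x hx, ← K.rel.dir hx (ρ := e.cyl.m.ρ) (A := e.cyl.W (K.pb c))
    (u := (K.pb c).Φ) (fun a => (K.hρ a x hx).symm) (fun a => (W_ψ K hx c a).symm)
    (.of_forall fun _ => rfl)]
  rfl

theorem fc_ψ (c : Cfg X.M κ ν) : b.fc c (K.ψ x) = e.cyl.fc (K.pb c) x := by
  refine congrArg (WithLp.toLp 2) (funext fun s => ?_)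
  rw [jp_ψ K hx, ← K.rel.curv hx (A := e.cyl.W (K.pb c))
    (fun a => (ev_src K hx).mono fun y hy => (W_ψ K hy c a).symm)]
  rfl

theorem qd_ψ (φ φ' : Eu ν) : b.qd (K.ψ x) φ φ' = e.cyl.qd x φ φ' := by
  refine congrArg (WithLp.toLp 2) (funext fun s => ?_)
  rw [K.hJ, K.hρ _ x hx, K.hρ _ x hx]
  rfl

theorem eC_ψ (c : Cfg X.M κ ν) : b.eC c (K.ψ x) = e.cyl.eC (K.pb c) x := by
  rw [Bg.eC, p2_ψ K hx, fc_ψ K hx, qd_ψ K hx, K.hw, K.hom x hx]
  rfl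

theorem ed_ψ (c : Cfg X.M κ ν) : b.ed c (K.ψ x) = Bg.ed (X := e.Z) e.cyl (K.pb c) x := by
  simp only [Bg.ed, fc_ψ K hx, nab_ψ K hx, K.hw]
  rfl

theorem la_ψ (h : LA b c (K.ψ x)) : LA e.cyl (K.pb c) x where
  sa i := sa_ψ K hx (h.sa i)
  sΦ := sa_ψ K hx h.sΦ
  pa i := (Finset.sum_congr rfl fun j _ => congrArg (· * _) (K.P i j x hx).symm).trans (h.pa i)
  pΦ := (congrArg (fun T : En ν => T _) (pp_ψ K hx).symm).trans h.pΦ

theorem lg_ψ (h : Gau X.I u) : LG (IC e.Y.I) (fun y => u (K.ψ y)) x :=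
  ⟨sa_ψ K hx (h.1 _), .of_forall fun _ => h.2 _⟩

theorem th_ψ (u : X.M → ℂ) (i : Option κ) :
    th b.F.toPre u i (K.ψ x) = th e.D.Z.toPre (fun y => u (K.ψ y)) i x := by
  rw [th, D_ψ K hx]
  rfl

theorem pb_act (u : X.M → ℂ) (c : Cfg X.M κ ν) :
    (∀ i, (K.pb (b.act u c)).a i x = (e.cyl.act (fun y => u (K.ψ y)) (K.pb c)).a i x) ∧
    (K.pb (b.act u c)).Φ x = (e.cyl.act (fun y => u (K.ψ y)) (K.pb c)).Φ x :=
  ⟨fun i => congrArg (c.a i (K.ψ x) - ·) (th_ψ K hx u i),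
    congrArg (fun J => cs J (u (K.ψ x)) (c.Φ (K.ψ x))) K.hJ⟩

end at_x

theorem sl_pb_act (ht : t ∈ K.J) (u : X.M → ℂ) (c : Cfg X.M κ ν) :
    sl (K.pb (b.act u c)) t = sl (e.cyl.act (fun y => u (K.ψ y)) (K.pb c)) t :=
  YC.ext (funext fun k => funext fun y => (pb_act K (src K ht y) u c).1 (some k))
    (funext fun y => (pb_act K (src K ht y) u c).2)

theorem admOn_pb (h : b.Adm c) : e.cyl.AdmOn (K.pb c) (univ ×ˢ K.J) :=
  admOn_of fun _ hx => la_ψ K (K.mem_src.2 hx.2) (.of_adm h _)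

theorem eqv_pb (h : b.Adm c) (hu : Gau X.I u) (ht : t ∈ K.J) : e.cyl.Adm (fz (sl (K.pb c) t)) ∧
    Eqv (sl (K.pb c) t) (sl (K.pb (b.act u c)) t) :=
  ⟨sl_adm fun y => la_ψ K (src K ht y) (.of_adm h _),
    sl_pb_act K ht u c ▸ eqv_sl _ fun y => lg_ψ K (src K ht y) hu⟩

theorem deep_sub {d : ℝ} (ht : t ∈ K.deep d) : t ∈ Dp K.p K.q d :=
  ⟨fun a ha => (ht.1 _ (Option.mem_map.2 ⟨a, ha, rfl⟩)).le,
    fun a ha => (ht.2 _ (Option.mem_map.2 ⟨a, ha, rfl⟩)).le⟩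

theorem deep_J {d : ℝ} (hd : 0 < d) (ht : t ∈ K.deep d) : t ∈ K.J := Nd18.Dp_sub hd (deep_sub K ht)

theorem half_J {s : ℝ} (hs : s ∈ Dp K.p K.q 1) (ht : t ∈ Icc (s - 1 / 2) (s + 1 / 2)) : t ∈ K.J :=
  ⟨fun a ha => by linarith [hs.1 a ha, ht.1], fun a ha => by linarith [hs.2 a ha, ht.2]⟩

theorem rad_act (hb : b.OK) (he : e.OK) (h : b.Adm c) (hu : Gau X.I u) (z : X.M) :
    K.rad (b.act u c) z = cs b.m.J (u z) (K.rad c z) := by
  rw [Nk.rad, Nk.rad, ← cB_apply, map_smul, cB_apply, ← cs_comm (Jρ hb none z)]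
  by_cases hz : z ∈ K.dp 1
  · rw [Eqv.nm he (eqv_pb K h hu (Nd18.Dp_sub one_pos hz)).2]
    rfl
  · rw [K.χ_zero hz, zero_mul, zero_mul, zero_smul, zero_smul]

theorem hl_act (he : e.OK) (h : b.Adm c) (hu : Gau X.I u) (z : X.M) :
    K.hl (b.act u c) z = K.hl c z := by
  rw [Nk.hl, Nk.hl]
  by_cases hz : z ∈ K.dp 1
  · have := eqv_pb K h hu (Nd18.Dp_sub one_pos hz)
    rw [he.per _ _ this.1 this.2]
  · rw [K.ext_zero _ hz, smul_zero, smul_zero]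

theorem lb_act (hi : e.Inv) (h : b.Adm c) (hu : Gau X.I u) (ht : t ∈ Dp K.p K.q 1) :
    lb (K.pb (b.act u c)) t = lb (K.pb c) t :=
  lb_congr fun _ hs => hi _ _ (eqv_pb K h hu (half_J K ht hs)).1 (eqv_pb K h hu (half_J K ht hs)).2

theorem ms_act (T : e.YT) (h : b.Adm c) (hu : Gau X.I u) (z : X.M) :
    K.ms T (b.act u c) z = K.ms T c z := by
  rw [Nk.ms, Nk.ms]
  by_cases hz : z ∈ K.dp 1
  · rw [lb_act K T.inv h hu hz]
  · rw [K.ext_zero _ hz, smul_zero, smul_zero]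

theorem en_act (he : e.OK) (h : b.Adm c) (hu : Gau X.I u) {S : Set ℝ} (hS : MeasurableSet S)
    (hJ : S ⊆ K.J) : en (K.pb (b.act u c)) S = en (K.pb c) S :=
  setLIntegral_congr_fun hS fun _ ht => congrArg ENNReal.ofReal
    (Eqv.gn he (eqv_pb K h hu (hJ ht)).1 (eqv_pb K h hu (hJ ht)).2)

theorem off {z : X.M} (hz : z ∉ K.ψ.target) : z ∉ K.dp 1 := fun h => hz (K.dp_sub one_pos h)

theorem χ_ψ (hx : x.2 ∈ K.deep 2) : K.χ (K.ψ x) = 1 := K.χ_one (by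
  show K.tm (K.ψ x) ∈ Dp K.p K.q 2
  rw [K.tm_ψ x (K.mem_src.2 (deep_J K two_pos hx))]
  exact deep_sub K hx)

theorem ext_ψ {V : Type} [NormedAddCommGroup V] [NormedSpace ℝ V] (f : e.Y.M → V)
    (hx : x.2 ∈ K.deep 2) : K.ext f (K.ψ x) = f x.1 := by
  rw [Nd18.Nk.ext, χ_ψ K hx, one_smul, K.ψ.left_inv (K.mem_src.2 (deep_J K two_pos hx))]

end nk

theorem ed_act {b : Bg X.I X.M κ lam ν nc} (hb : b.OK) {c : Cfg X.M κ ν} {u : X.M → ℂ} {x : X.M}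
    (h : LA b c x) (hu : LG X.I u x) : b.ed (b.act u c) x = b.ed c x := by
  simp only [Bg.ed, fc_act hb h.sa hu, nab_act hb h hu, norm_act hb hu.one.self_of_nhds,
    norm_cs hb.m.Jsq hb.m.Jsk hu.one.self_of_nhds]

theorem elim_congr {α β : Type*} {o : Option α} {a : β} {f g : α → β} (h : ∀ K ∈ o, f K = g K) :
    o.elim a f = o.elim a g := by
  cases o with
  | none => rfl
  | some K => exact h K rfl

theorem elim_zero {α β : Type*} [Zero β] {o : Option α} {f : α → β} (h : ∀ K ∈ o, f K = 0) :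
    o.elim 0 f = 0 := by
  cases o with
  | none => rfl
  | some K => exact h K rfl

section pz
variable {N : Type} [Fintype N] {e : N → En3 κ lam ν} {P : Pz X nc e} (hP : P.OK)
  {c : Cfg X.M κ ν} {u : X.M → ℂ}
include hP

/-- at a point of the neck `i` the other necks do not contribute -/
theorem sum_nk {V : Type} [AddCommMonoid V] {i : N} {K : Nk (e i) P.bg} (hK : K ∈ P.nk i) {z : X.M}
    (hz : z ∈ K.ψ.target) (f : ∀ j, Nk (e j) P.bg → V) (hf : ∀ j K', z ∉ K'.dp 1 → f j K' = 0) :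
    ∑ j, (P.nk j).elim 0 (f j) = f i K := by
  rw [Finset.sum_eq_single i (fun j _ hj => elim_zero fun K' h' => hf j K' (off K' fun h =>
    disjoint_left.1 (hP.dj hj K' h' K hK) h hz)) fun h => (h (Finset.mem_univ i)).elim,
    Option.mem_def.1 hK, Option.elim_some]

theorem p0D_act (h : P.bg.Adm c) (hu : Gau X.I u) (x : X.M) :
    P.p0.D (P.bg.act u c) x = cs P.bg.m.J (u x) (P.p0.D c x) := by
  refine .trans (Finset.sum_congr rfl fun i _ => ?_) (map_sum (cB P.bg.m.J (u x)) _ _).symm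
  cases P.nk i with
  | none => rw [Option.elim_none, Option.elim_none, map_zero]
  | some K => rw [Option.elim_some, Option.elim_some, rad_act K hP.bg (hP.en i) h hu, cB_apply]

theorem p0C_act (h : P.bg.Adm c) (hu : Gau X.I u) : P.p0.C (P.bg.act u c) = P.p0.C c :=
  funext fun x => Finset.sum_congr rfl fun i _ => elim_congr fun K _ => hl_act K (hP.en i) h hu x

theorem ean_act (h : P.bg.Adm c) (hu : Gau X.I u) : P.ean (P.bg.act u c) = P.ean c := by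
  rw [Pz.ean, Pz.ean, show P.bg.ed (P.bg.act u c) = P.bg.ed c from
    funext fun x => ed_act hP.bg (.of_adm h x) (.of_gau hu x)]
  exact congrArg _ (Finset.sum_congr rfl fun i _ => elim_congr fun K _ =>
    en_act K (hP.en i) h hu isOpen_Jv.measurableSet fun _ => deep_J K two_pos)

end pz

variable {d : Dt κ lam ν} {N : Type} [Fintype N] {ty : N → d.𝓔} {P : Pc d X nc ty}
  {c : Cfg X.M κ ν} {u : X.M → ℂ}

theorem tm_act (h : P.bg.Adm c) (hu : Gau X.I u) (w : d.W) : P.tm w (P.bg.act u c) = P.tm w c :=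
  funext fun x => congrArg (P.fo w x + ·) (Finset.sum_congr rfl fun _ _ =>
    elim_congr fun K _ => elim_congr fun T _ => ms_act K T h hu x)

/-- the perturbation in the coordinates of a neck -/
theorem pt_ψ (hP : P.toPz.OK) (q : d.W →₀ ℝ) (c : Cfg X.M κ ν) {i : N} {K : Nk (d.e (ty i)) P.bg}
    (hK : K ∈ P.nk i) {x : (d.e (ty i)).Y.M × ℝ} (hx : x.2 ∈ K.deep 2)
    (h0 : ∀ w ∈ q.support, P.fo w (K.ψ x) = 0) :
    (P.pt q).D c (K.ψ x) = (pt (fun w => d.yt w (ty i)) q).D (K.pb c) x ∧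
    (P.pt q).C c (K.ψ x) = (pt (fun w => d.yt w (ty i)) q).C (K.pb c) x := by
  have hs := K.mem_src.2 (deep_J K two_pos hx)
  have hz := K.ψ.map_source hs
  refine ⟨(sum_nk hP hK hz (fun _ K' => K'.rad c (K.ψ x)) fun j K' h => ?_).trans ?_,
    congrArg₂ (· + ·) ((sum_nk hP hK hz (fun _ K' => K'.hl c (K.ψ x)) fun j K' h => ?_).trans ?_)
      (Finsupp.sum_congr fun w hw => congrArg (q w • ·) ?_)⟩
  · rw [Nk.rad, K'.χ_zero h, zero_mul, zero_smul]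
  · rw [Nk.rad, χ_ψ K hx, one_mul, K.tm_ψ x hs, K.hρ _ x hs]
    rfl
  · rw [Nk.hl, K'.ext_zero _ h, smul_zero]
  · rw [Nk.hl, ext_ψ K _ hx, K.tm_ψ x hs]
  · rw [Pc.tm, h0 w hw, zero_add, sum_nk hP hK hz
      (fun j K' => (d.yt w (ty j)).elim 0 fun T => K'.ms T c (K.ψ x)) fun j K' h =>
        elim_zero fun T _ => by rw [Nk.ms, K'.ext_zero _ h, smul_zero]]
    exact elim_congr fun T _ => by rw [Nk.ms, ext_ψ K _ hx, K.tm_ψ x hs]

/-- `PbStmt.loc` -/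
theorem loc (hP : P.toPz.OK) (q : d.W →₀ ℝ) (c : Cfg X.M κ ν) {i : N} {K : Nk (d.e (ty i)) P.bg}
    (hK : K ∈ P.nk i) {p p' : Option ℝ} (hp : Jv p p' ⊆ K.deep 2)
    (h0 : ∀ w ∈ q.support, ∀ x ∈ univ ×ˢ Jv p p', P.fo w (K.ψ x) = 0) :
    P.bg.EqOn (P.pt q) c (K.ψ '' univ ×ˢ Jv p p') ↔
      (d.e (ty i)).cyl.EqOn (pt (fun w => d.yt w (ty i)) q) (K.pb c) (univ ×ˢ Jv p p') := by
  rw [Bg.EqOn, forall_mem_image]
  refine forall₂_congr fun x hx => ?_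
  have hs := K.mem_src.2 (deep_J K two_pos (hp hx.2))
  obtain ⟨h1, h2⟩ := pt_ψ hP q c hK (hp hx.2) fun w hw => h0 w hw x hx
  rw [eD_ψ K hs, eC_ψ K hs, h1, h2]

end Crest.Agent.X212.Pb50
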