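import Crest.Agent.X212.Pb50.Act
import Crest.Agent.X212.Nd18.Api

/-!
# Row 212, SW-PB (helper50): slices and gauge transformations on the cylinder
-/

set_option autoImplicit false
set_option linter.unusedSectionVars false
noncomputable section
open scoped Manifold ContDiff Topology InnerProductSpace
open MeasureTheory Set Function Filter

namespace Crest.Agent.X212.Pb50
open An Sw Sob92 Cyf70 Sw.En3
open Wz78 (SA)
open Nd18 (Jv isOpen_Jv)

variable {κ lam ν : Type} [Fintype κ] [Fintype lam] [Fintype ν] [DecidableEq ν]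
  {e : En3 κ lam ν} {c c' : e.ZC} {u : e.Y.M × ℝ → ℂ} {s : ℝ} {v v' : e.YC}

theorem bp_zero {p : ℝ} (h : p ∉ Icc (0 : ℝ) 1) : bp p = 0 := by
  rcases not_and_or.1 h with h | h
  · have : Real.smoothTransition =ᶠ[𝓝 p] fun _ => 0 := by
      filter_upwards [Iio_mem_nhds (not_le.1 h)] with z hz
      exact Real.smoothTransition.zero_of_nonpos (le_of_lt hz)
    rw [bp, this.deriv_eq, deriv_const]
  · have : Real.smoothTransition =ᶠ[𝓝 p] fun _ => 1 := by
      filter_upwards [Ioi_mem_nhds (not_le.1 h)] with z hz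
      exact Real.smoothTransition.one_of_one_le (le_of_lt hz)
    rw [bp, this.deriv_eq, deriv_const]

/-- the averaged level sees only the times within `1 / 2` -/
theorem lb_congr (h : ∀ t ∈ Icc (s - 1 / 2) (s + 1 / 2), L (sl c' t) = L (sl c t)) :
    lb c' s = lb c s := by
  refine congrArg (integral _) (funext fun p => ?_)
  by_cases hp : p ∈ Icc (0 : ℝ) 1
  · exact congrArg _ (h (s + p - 1 / 2) ⟨by linarith [hp.1], by linarith [hp.2]⟩)
  · rw [bp_zero hp, zero_mul, zero_mul]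

theorem sm_sl {N : Type} [NormedAddCommGroup N] [NormedSpace ℝ N] {f : e.Y.M × ℝ → N}
    (h : ∀ y, SA (IC e.Y.I) f (y, s)) : Sm e.Y.I fun y => f (y, s) := fun y =>
  (h y).comp y (contMDiffAt_id.prodMk contMDiffAt_const)

/-- slices of admissible configurations are admissible -/
theorem sl_adm (h : ∀ y, LA e.cyl c (y, s)) : e.cyl.Adm (fz (sl c s)) where
  sa i := by
    cases i with
    | none => exact contMDiff_const
    | some k => exact sm_fst (sm_sl fun y => (h y).sa (some k))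
  sΦ := sm_fst (sm_sl fun y => (h y).sΦ)
  pa i x := by
    cases i with
    | none =>
      rw [Fintype.sum_option]
      exact (congrArg₂ _ (mul_zero _) (Finset.sum_eq_zero fun k _ => zero_mul _)).trans (add_zero _)
    | some k =>
      have := (h x.1).pa (some k)
      rw [Fintype.sum_option] at this ⊢
      exact (congrArg₂ _ ((zero_mul _).trans (zero_mul _).symm) rfl).trans this
  pΦ x := (h x.1).pΦ

theorem sl_act (c : e.ZC) (hu : ∀ y, SA (IC e.Y.I) u (y, s)) :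
    fz (sl (e.cyl.act u c) s) = e.cyl.act (fun x => u (x.1, s)) (fz (sl c s)) := by
  refine Cfg.ext (funext fun i => funext fun x => ?_) rfl
  cases i with
  | none =>
    have := congrFun (D_none_fst e.D.F.toPre (sm_sl hu)) x
    show (0 : ℝ) = 0 - Complex.im (_ * (cylP e.D.F.toPre).D none _ x)
    rw [this]; simp
  | some k =>
    have := congrFun (D_some_fst e.D.F.toPre (sm_sl hu) k) x
    show _ - Complex.im (_ * (cylP e.D.F.toPre).D (some k) u (x.1, s)) =
      _ - Complex.im (_ * (cylP e.D.F.toPre).D (some k) _ x)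
    rw [this, D_some_at _ (hu x.1).md]
    rfl

theorem eqv_sl (c : e.ZC) (hu : ∀ y, LG (IC e.Y.I) u (y, s)) :
    Eqv (sl c s) (sl (e.cyl.act u c) s) :=
  ⟨fun y => u (y, s), ⟨sm_sl fun y => (hu y).sm, fun y => (hu y).one.self_of_nhds⟩,
    sl_act c fun y => (hu y).sm⟩

theorem gau_fst {g : e.Y.M → ℂ} (h : Gau e.Y.I g) : Gau (IC e.Y.I) fun x : e.Y.M × ℝ => g x.1 :=
  ⟨sm_fst h.1, fun x => h.2 x.1⟩

section eqv
variable (he : e.OK)
include he

theorem Eqv.adm (hv : e.cyl.Adm (fz v)) (h : Eqv v v') : e.cyl.Adm (fz v') := by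
  obtain ⟨g, hg, h⟩ := h
  exact h ▸ adm_of fun x => (LA.of_adm hv x).act he.cyl ((gau_fst hg).1 x)

theorem Eqv.nm (h : Eqv v v') : nm v' = nm v := by
  obtain ⟨g, hg, h⟩ := h
  refine congrArg (integral _) (funext fun y => ?_)
  rw [show v'.Φ y = (fz v').Φ (y, 0) from rfl, h, norm_act he.cyl (hg.2 y)]
  rfl

/-- the gradient is equivariant -/
theorem gr_act (hv : e.cyl.Adm (fz v)) {g : e.Y.M → ℂ} (hg : Gau e.Y.I g)
    (h : fz v' = e.cyl.act (fun x => g x.1) (fz v)) :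
    (gr v').a = (gr v).a ∧ ∀ y, (gr v').Φ y = cs e.m.J (g y) ((gr v).Φ y) := by
  have hl := fun x => LG.of_gau (gau_fst hg) x
  refine ⟨funext fun k => funext fun y => ?_, fun y => ?_⟩
  · simp only [gr, he.per v v' hv ⟨g, hg, h⟩, h, eC_act he.cyl (fun i => hv.sa i _) (hl _)]
  · have h1 : v'.Φ y = cs e.m.J (g y) (v.Φ y) := congrArg (fun c : e.ZC => c.Φ (y, 0)) h
    have h2 := cs_comm (Jρ he.cyl none (y, 0)) (g y) (e.cyl.eD (fz v) (y, 0))
    simp only [gr, Eqv.nm he ⟨g, hg, h⟩, h, eD_act he.cyl (.of_adm hv _) (hl _), h1]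
    rw [← cB_apply _ _ (_ - _), map_sub, map_neg, map_smul]
    exact congrArg (fun t => -t - _) h2

theorem Eqv.gn (hv : e.cyl.Adm (fz v)) (h : Eqv v v') : gn v' = gn v := by
  obtain ⟨g, hg, h⟩ := h
  obtain ⟨h1, h2⟩ := gr_act he hv hg h
  refine congrArg (integral _) (funext fun y => ?_)
  rw [h1, h2]
  exact congrArg (fun t => _ + e.w * t) (inner_cs he.cyl.m.Jsq he.cyl.m.Jsk (hg.2 y) _ _)

theorem Eqv.crit (hv : Crit v) (h : Eqv v v') : Crit v' := by
  have ha := Eqv.adm he hv.1 h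
  obtain ⟨g, hg, h⟩ := h
  obtain ⟨h1, h2⟩ := gr_act he hv.1 hg h
  exact ⟨ha, fun k y => by rw [h1, hv.2.1], fun y => by rw [h2, hv.2.2]; simp [cs]⟩

end eqv

theorem Jv_half {p p' : Option ℝ} {t : ℝ} (hs : s ∈ Jv p p') (ht : t ∈ Icc (s - 1 / 2) (s + 1 / 2)) :
    t ∈ Jv (p.map (· - 1)) (p'.map (· + 1)) := by
  constructor <;> intro a ha <;> obtain ⟨a, h, rfl⟩ := Option.mem_map.1 ha
  · linarith [hs.1 a h, ht.1]
  · linarith [hs.2 a h, ht.2]

theorem isOpen_prod {p p' : Option ℝ} : IsOpen ((univ : Set e.Y.M) ×ˢ Jv p p') :=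
  isOpen_univ.prod isOpen_Jv

variable {W : Type} {T : W → Option e.YT} {q : W →₀ ℝ} {x : e.Y.M × ℝ}

theorem tau_congr (h : ∀ t ∈ Icc (x.2 - 1 / 2) (x.2 + 1 / 2), e.cyl.Adm (fz (sl c t)) ∧
    Eqv (sl c t) (sl c' t)) : tau T q c' x = tau T q c x := by
  refine Finsupp.sum_congr fun w _ => congrArg _ ?_
  cases T w with
  | none => rw [Option.elim_none, Option.elim_none]
  | some T' =>
    rw [Option.elim_some, Option.elim_some, lb_congr fun t ht => T'.inv _ _ (h t ht).1 (h t ht).2]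

theorem ptD_act (he : e.OK) (h : Eqv (sl c x.2) (sl (e.cyl.act u c) x.2)) :
    (pt T q).D (e.cyl.act u c) x = cs e.m.J (u x) ((pt T q).D c x) := by
  show e.b (nm (sl (e.cyl.act u c) x.2)) • e.m.ρ none x.1 (cs e.m.J (u x) (c.Φ x)) =
    cB e.m.J (u x) (e.b (nm (sl c x.2)) • e.m.ρ none x.1 (c.Φ x))
  rw [Eqv.nm he h, map_smul]
  exact congrArg _ (cs_comm (Jρ he.cyl none x) _ _)

theorem ptC_congr (he : e.OK) (h : ∀ t ∈ Icc (x.2 - 1 / 2) (x.2 + 1 / 2),
    e.cyl.Adm (fz (sl c t)) ∧ Eqv (sl c t) (sl c' t)) : (pt T q).C c' x = (pt T q).C c x := by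
  have h0 := h x.2 ⟨by linarith, by linarith⟩
  show -deriv e.f (hol (sl c' x.2)) • e.ζ x.1 + tau T q c' x =
    -deriv e.f (hol (sl c x.2)) • e.ζ x.1 + tau T q c x
  rw [he.per _ _ h0.1 h0.2, tau_congr h]

/-- `PbStmt.loca` -/
theorem loca (he : e.OK) {p p' : Option ℝ} (h : Loc T q c p p')
    (hu : GauOn (IC e.Y.I) u (univ ×ˢ Jv (p.map (· - 1)) (p'.map (· + 1)))) :
    Loc T q (e.cyl.act u c) p p' ∧ ∀ s ∈ Jv (p.map (· - 1)) (p'.map (· + 1)),
      Eqv (sl c s) (sl (e.cyl.act u c) s) ∧ gn (sl (e.cyl.act u c) s) = gn (sl c s) ∧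
        nm (sl (e.cyl.act u c) s) = nm (sl c s) := by
  have ha := fun x hx => LA.of_on h.adm isOpen_prod (x := x) hx
  have hg := fun x hx => LG.of_on hu isOpen_prod (x := x) hx
  have h1 : ∀ s ∈ Jv (p.map (· - 1)) (p'.map (· + 1)), e.cyl.Adm (fz (sl c s)) ∧
      Eqv (sl c s) (sl (e.cyl.act u c) s) := fun s hs =>
    ⟨sl_adm fun y => ha _ ⟨trivial, hs⟩, eqv_sl c fun y => hg _ ⟨trivial, hs⟩⟩
  refine ⟨⟨admOn_of fun x hx => (ha x hx).act he.cyl (hg x hx).sm, fun x hx => ?_⟩,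
    fun s hs => ⟨(h1 s hs).2, Eqv.gn he (h1 s hs).1 (h1 s hs).2, Eqv.nm he (h1 s hs).2⟩⟩
  have hx' : x.2 ∈ Jv (p.map (· - 1)) (p'.map (· + 1)) := Jv_half hx.2 ⟨by linarith, by linarith⟩
  have k1 := ha x ⟨trivial, hx'⟩
  have k2 := hg x ⟨trivial, hx'⟩
  exact ⟨(eD_act he.cyl k1 k2).trans ((congrArg _ (h.eq x hx).1).trans (ptD_act he (h1 _ hx').2).symm),
    (eC_act he.cyl k1.sa k2).trans ((h.eq x hx).2.trans
      (ptC_congr he fun t ht => h1 t (Jv_half hx.2 ht)).symm)⟩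

/-- `PbStmt.cyl` -/
theorem cyl_pt (d : Dt κ lam ν) (ε : d.𝓔) (q : d.W →₀ ℝ) :
    (d.cyl ε).pt q = pt (fun w => d.yt w ε) q := by
  have h1 : ∀ x, (d.e ε).nk.χ x = 1 := fun x => Nd18.ct_none
  unfold Pc.pt pt
  congr 1
  · funext c x
    simp only [Pz.p0, Dt.cyl, Finset.univ_unique, Finset.sum_singleton, Option.elim_some, Nk.rad,
      h1, one_mul]
    rfl
  · funext c x
    simp only [Pz.p0, Pc.tm, Dt.cyl, Finset.univ_unique, Finset.sum_singleton, Option.elim_some,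
      Nk.hl, Nk.ms, Nd18.Nk.ext, h1, one_smul, zero_add]
    rfl
  · funext c j
    exact j.elim0

end Crest.Agent.X212.Pb50
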