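import Crest.Agent.X212.Pb50.Nk
import Crest.Agent.X212.Sob92.Fun

/-!
# Row 212, SW-PB (helper50): functions with all derivatives in `L²` along an end
-/

set_option autoImplicit false
set_option linter.unusedSectionVars false
noncomputable section
open scoped Manifold ContDiff Topology InnerProductSpace
open MeasureTheory Set Function Filter

namespace Crest.Agent.X212.Pb50
open An Sw Sob92 Cyf70
open Wz78 (SA)
open M (pm)

variable {N N' N'' : Type} [NormedAddCommGroup N] [NormedSpace ℝ N] [NormedAddCommGroup N']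
  [NormedSpace ℝ N'] [NormedAddCommGroup N''] [NormedSpace ℝ N''] {ι : Type} [Fintype ι]

section gen
variable {E : Type} [NormedAddCommGroup E] [NormedSpace ℝ E] [FiniteDimensional ℝ E]
  [MeasurableSpace E] [BorelSpace E]
  {HM : Type} [TopologicalSpace HM] {I : ModelWithCorners ℝ E HM}
  {M : Type} [TopologicalSpace M] [ChartedSpace HM M] [IsManifold I ∞ M] [MeasurableSpace M]
  [T2Space M] [BorelSpace M] [SecondCountableTopology M] {F : Pre I M ι} {f g : M → N}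
  {O O' : Set M} {x : M}

theorem Dw_congr (w : List ι) : ∀ {f g : M → N}, f =ᶠ[𝓝 x] g → F.Dw w f =ᶠ[𝓝 x] F.Dw w g := by
  induction w with
  | nil => exact id
  | cons a w ih => exact fun h => ih (h.eventuallyEq_nhds.mono fun y hy => dv_congr hy)

theorem Cb_of_bdd (hf : Sm I f) (h : ∀ w, ∃ C, ∀ x, ‖F.Dw w f x‖ ≤ C) : F.Cb f := by
  have : ∀ (k : ℕ) (f : M → N), (∀ w, ∃ C, ∀ x, ‖F.Dw w f x‖ ≤ C) → ∃ C, F.CB k f C := by
    intro k
    induction k with
    | zero => exact fun f h => (h []).imp fun C hC => CB_zero.2 hC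
    | succ k ih =>
      intro f h
      obtain ⟨C₀, h0⟩ := h []
      choose C hC using fun a => ih (F.D a f) fun w => h (a :: w)
      obtain ⟨B, hB⟩ := Finite.exists_le C
      exact ⟨max C₀ B, CB_succ.2 ⟨fun x => (h0 x).trans (le_max_left _ _),
        fun a => CB_mono (hC a) ((hB a).trans (le_max_right _ _))⟩⟩
  choose C hC using fun k => this k f h
  exact ⟨C, hf, hC⟩

theorem hh_mono (h : Hh F O f) (hO : O' ⊆ O) : Hh F O' f := fun w => (h w).mono_set hO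

theorem hh_congr (h : Hh F O f) (hO : IsOpen O) (e : EqOn f g O) : Hh F O g := fun w =>
  (h w).congr_fun (fun x hx => by
    simp only [(Dw_congr (F := F) w (e.eventuallyEq_of_mem (hO.mem_nhds hx))).self_of_nhds])
    hO.measurableSet

theorem hh_iff (hf : Sm I f) : Hh F O f ↔ ∀ k, FS F O k f := by
  have h0 : ∀ {f : M → N}, Sm I f → IntegrableOn (fun x => ‖f x‖ ^ 2) O F.μ →
      MemLp f 2 (F.μ.restrict O) := fun hf h =>
    (memLp_two_iff_integrable_sq_norm hf.continuous.aestronglyMeasurable).2 h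
  refine ⟨fun h k => ?_, fun h w => ?_⟩
  · induction k generalizing f with
    | zero => exact h0 hf (h [])
    | succ k ih => exact ⟨h0 hf (h []), fun a => ih (F.sm_D hf a) fun w => h (a :: w)⟩
  · induction w generalizing f with
    | nil => exact int_sq (h 0)
    | cons a w ih => exact ih (F.sm_D hf a) fun k => (h (k + 1)).2 a

variable (F) in
/-- smooth, all derivatives square integrable -/
def Hi (g : M → N) : Prop := Sm I g ∧ ∀ k, FL F k g

theorem Hi.hh (h : Hi F g) (O : Set M) : Hh F O g := (hh_iff h.1).2 fun k => FL_FS (h.2 k) O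

theorem Hi.zero : Hi F (0 : M → N) :=
  ⟨contMDiff_const, fun k => FL_of_hcs k contMDiff_const HasCompactSupport.zero⟩

theorem Hi.add (h : Hi F f) (h' : Hi F g) : Hi F (f + g) :=
  ⟨h.1.add h'.1, fun k => ML.add F.sm h.1 h'.1 (h.2 k) (h'.2 k)⟩

theorem Hi.clm (L : N →L[ℝ] N') (h : Hi F f) : Hi F fun x => L (f x) :=
  ⟨L.contMDiff.comp h.1, fun k => ML.clm F.sm L h.1 (h.2 k)⟩

theorem Hi.bil (B : N →L[ℝ] N' →L[ℝ] N'') {u : M → N'} (hf : F.Cb f) (h : Hi F u) :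
    Hi F fun x => B (f x) (u x) :=
  let ⟨_, hC⟩ := hf
  ⟨smooth_bil B hC.1 h.1, fun k => (N2_mul B hC.1 h.1 (hC.2 k) (h.2 k)).1⟩

theorem Hi.D (h : Hi F f) (a : ι) : Hi F (F.D a f) := ⟨F.sm_D h.1 a, fun k => (h.2 (k + 1)).2 a⟩

theorem Hi.Dw (w : List ι) : ∀ {f : M → N}, Hi F f → Hi F (F.Dw w f) := by
  induction w with
  | nil => exact id
  | cons a w ih => exact fun h => ih (h.D a)

/-- Sobolev -/
theorem Hi.cb {F : Fr I M ι} {C : ℕ → ℝ} (hT : F.Tame C) (h : Hi F.toPre f) : F.Cb f := by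
  refine Cb_of_bdd h.1 fun w => ?_
  have h1 := h.Dw w
  generalize F.Dw w f = g at h1
  refine ⟨√(|C 0| * ((cK ι 4 * ‖ContinuousLinearMap.lsmul ℝ ℝ (E := N)‖ * C 4) ^ 2 *
    N2 F.toPre 4 g)), fun x => Real.le_sqrt_of_sq_le ?_⟩
  obtain ⟨χ, h2, h3, -, h4⟩ := hT.exh {x} isCompact_singleton
  have h5 := (Sup.of_tame hT).sq_le (u := fun y => χ y • g y) (h2.1.smul h1.1)
    (hcs_bil_left (ContinuousLinearMap.lsmul ℝ ℝ) g h3) x
  rw [h4 x rfl, one_smul] at h5
  exact h5.trans (mul_le_mul_of_nonneg_left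
    (N2_mul (ContinuousLinearMap.lsmul ℝ ℝ) h2.1 h1.1 (h2.2 4) (h1.2 4)).2 (abs_nonneg _))

end gen

section cyl
variable {E : Type} [NormedAddCommGroup E] [NormedSpace ℝ E] [FiniteDimensional ℝ E]
  [MeasurableSpace E] [BorelSpace E]
  {HM : Type} [TopologicalSpace HM] {I : ModelWithCorners ℝ E HM} [I.Boundaryless]
  {Y : Type} [TopologicalSpace Y] [ChartedSpace HM Y] [IsManifold I ∞ Y] [MeasurableSpace Y]
  [T2Space Y] [BorelSpace Y] [SecondCountableTopology Y] [CompactSpace Y] {F : Pre I Y ι}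
  {f g : Y × ℝ → N} {s : Bool} {J : Set ℝ}

variable (Y) in
/-- the end `s` of the cylinder -/
def nd (s : Bool) : Filter (Y × ℝ) := comap (fun x => pm s * x.2) atTop

theorem nd_basis : (nd Y s).HasBasis (fun _ => True) fun T => {x | T < pm s * x.2} :=
  atTop_basis_Ioi.comap _

theorem isOpen_nd (T : ℝ) : IsOpen {x : Y × ℝ | T < pm s * x.2} :=
  isOpen_lt continuous_const (by fun_prop)

theorem nd_nhds {p : Y × ℝ → Prop} (h : ∀ᶠ x in nd Y s, p x) : ∀ᶠ x in nd Y s, ∀ᶠ y in 𝓝 x, p y := by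
  obtain ⟨T, -, hT⟩ := nd_basis.eventually_iff.1 h
  exact nd_basis.eventually_iff.2 ⟨T, trivial, fun x hx =>
    ((isOpen_nd T).eventually_mem hx).mono fun y hy => hT hy⟩

theorem cb_st (T : ℝ) : (cylP F).Cb fun x => Real.smoothTransition (pm s * x.2 - T) := by
  obtain ⟨C, hC⟩ := Nd18.bd_st
  cases s
  · exact ⟨C, by simpa [pm, sub_eq_neg_add, add_comm] using (hC.refl (-T)).cyl F⟩
  · exact ⟨C, by simpa [pm, sub_eq_add_neg] using (hC.shift (-T)).cyl F⟩

variable (F s) in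
/-- equal to a function of class `Hi` near the end -/
def Gl (f : Y × ℝ → N) : Prop := ∃ g, Hi (cylP F) g ∧ f =ᶠ[nd Y s] g

variable (F s) in
/-- equal to a function of class `Cb` near the end -/
def Gb (f : Y × ℝ → N) : Prop := ∃ g, (cylP F).Cb g ∧ f =ᶠ[nd Y s] g

theorem Gl.hh (h : Gl F s f) (hJ : IsOpen J) :
    ∃ T, Hh (cylP F) (univ ×ˢ (J ∩ {t | T < pm s * t})) f := by
  obtain ⟨g, hg, h⟩ := h
  obtain ⟨T, -, hT⟩ := nd_basis.eventually_iff.1 h
  exact ⟨T, hh_congr (hg.hh _) (isOpen_univ.prod (hJ.inter (isOpen_lt continuous_const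
    (by fun_prop)))) fun x hx => (hT hx.2.2).symm⟩

theorem gl_of_hh (hJ : ∀ᶠ x in nd Y s, x.2 ∈ J) (hf : ∀ x, x.2 ∈ J → SA (IC I) f x) {T : ℝ}
    (h : Hh (cylP F) (univ ×ˢ (J ∩ {t | T < pm s * t})) f) : Gl F s f := by
  obtain ⟨T₁, -, h1⟩ := nd_basis.eventually_iff.1 (hJ.and (nd_basis.mem_of_mem (i := T) trivial))
  let β : ℝ → Y × ℝ → ℝ := fun T x => Real.smoothTransition (pm s * x.2 - T)
  have β0 : ∀ T x, pm s * x.2 ≤ T → β T x = 0 := fun T x hx =>
    Real.smoothTransition.zero_of_nonpos (by linarith)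
  have β1 : ∀ T x, T + 1 < pm s * x.2 → β T x = 1 := fun T x hx =>
    Real.smoothTransition.one_of_one_le (by linarith)
  have sβ : ∀ T, Sm (IC I) (β T) := fun T => (cb_st (F := F) T).choose_spec.1
  have s0 : Sm (IC I) fun x => β (T₁ + 1) x • f x := fun x => by
    by_cases hx : T₁ < pm s * x.2
    · exact (sβ _ x).smul (hf x (h1 hx).1)
    · refine (contMDiffAt_const (c := (0 : N))).congr_of_eventuallyEq ?_
      filter_upwards [(isOpen_lt (f := fun x : Y × ℝ => pm s * x.2) (by fun_prop)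
        (continuous_const (y := T₁ + 1))).mem_nhds (show pm s * x.2 < T₁ + 1 by linarith)] with y hy
      rw [β0 _ y (le_of_lt hy), zero_smul]
  have h2 : Hh (cylP F) {x | T₁ + 2 < pm s * x.2} fun x => β (T₁ + 1) x • f x :=
    hh_congr (hh_mono h fun x hx => ⟨trivial, h1 (show T₁ < _ by linarith [mem_ofPred.1 hx])⟩)
      (isOpen_nd _) fun x hx => by
        simp only [β1 (T₁ + 1) x (by linarith [mem_ofPred.1 hx]), one_smul]
  obtain ⟨C, hC⟩ := cb_st (F := F) (s := s) (T₁ + 3)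
  refine ⟨fun x => β (T₁ + 3) x • β (T₁ + 1) x • f x, ⟨(sβ _).smul s0, fun k =>
    FL_of_FS (isOpen_nd (T₁ + 2)).measurableSet k ?_
      (NS_smul hC.1 s0 (hC.2 k) ((hh_iff s0).1 h2 k)).1⟩,
    nd_basis.eventually_iff.2 ⟨T₁ + 4, trivial, fun x hx => ?_⟩⟩
  · refine (closure_minimal (t := {x | T₁ + 3 ≤ pm s * x.2})
      (fun x hx => mem_ofPred.2 (le_of_not_gt fun h => ?_))
      (isClosed_le continuous_const (by fun_prop))).trans fun x hx => ?_
    · exact mem_support.1 hx (by simp only [β0 _ x h.le, zero_smul])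
    · exact show T₁ + 2 < _ by linarith [mem_ofPred.1 hx]
  · have := mem_ofPred.1 hx
    simp only [β1 (T₁ + 3) x (by linarith), β1 (T₁ + 1) x (by linarith), one_smul]

theorem Gl.congr (h : Gl F s f) (e : g =ᶠ[nd Y s] f) : Gl F s g :=
  h.imp fun _ h => ⟨h.1, e.trans h.2⟩

theorem Gb.congr (h : Gb F s f) (e : g =ᶠ[nd Y s] f) : Gb F s g :=
  h.imp fun _ h => ⟨h.1, e.trans h.2⟩

theorem Gl.add (h : Gl F s f) (h' : Gl F s g) : Gl F s fun x => f x + g x :=
  let ⟨_, a, b⟩ := h; let ⟨_, c, d⟩ := h'; ⟨_, a.add c, b.add d⟩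

theorem Gb.add (h : Gb F s f) (h' : Gb F s g) : Gb F s fun x => f x + g x :=
  let ⟨_, a, b⟩ := h; let ⟨_, c, d⟩ := h'; ⟨_, Cb_add a c, b.add d⟩

theorem Gl.clm (L : N →L[ℝ] N') (h : Gl F s f) : Gl F s fun x => L (f x) :=
  let ⟨_, a, b⟩ := h; ⟨_, a.clm L, b.fun_comp L⟩

theorem Gl.bil (B : N →L[ℝ] N' →L[ℝ] N'') {u : Y × ℝ → N'} (hf : Gb F s f) (h : Gl F s u) :
    Gl F s fun x => B (f x) (u x) :=
  let ⟨_, a, b⟩ := hf; let ⟨_, c, d⟩ := h
  ⟨_, c.bil B a, (b.and d).mono fun _ hx => congrArg₂ (fun p q => B p q) hx.1 hx.2⟩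

theorem Gl.D (h : Gl F s f) (a : Option ι) : Gl F s ((cylP F).D a f) :=
  let ⟨_, b, c⟩ := h; ⟨_, b.D a, (nd_nhds c).mono fun _ hx => dv_congr hx⟩

theorem gb_fst {φ : Y → N} (h : Sm I φ) : Gb F s fun x => φ x.1 :=
  ⟨_, Cht98.Cb_fst F (Cb_of_compact h), .rfl⟩

theorem Gl.gb {F : Fr I Y ι} {C : ℕ → ℝ} (hT : (cyl F).Tame C) (h : Gl F.toPre s f) :
    Gb F.toPre s f := h.imp fun _ h => ⟨Hi.cb hT h.1, h.2⟩

theorem Gb.bdd (h : Gb F s f) (w : List (Option ι)) :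
    ∃ C, ∀ᶠ x in nd Y s, ‖(cylP F).Dw w f x‖ ≤ C :=
  let ⟨_, ⟨C, a⟩, b⟩ := h
  ⟨C w.length, (nd_nhds b).mono fun x hx =>
    ((Dw_congr (F := cylP F) w hx).self_of_nhds.symm ▸ a.2 _ w le_rfl x :)⟩

end cyl

end Crest.Agent.X212.Pb50
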